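import Vale.Agent.P139Z.BF.Red
import Vale.Agent.P139Z.IntM

/-! Block BF, auxiliary file: elementary interior bounds for one profile. -/

open Set Filter Topology MeasureTheory Complex
open scoped NNReal ENNReal ComplexConjugate ContDiff

namespace Vale.Agent.P139Z.BF

variable {m : ℕ} {β : ℝ} {G : ℝ → ℂ} {C₀ ε ϑ ρb : ℝ} {l : ℕ} {f g : ℝ → ℂ}

theorem sq_mem {r : ℝ} (hr : r ∈ Icc (0 : ℝ) 4) : r ^ 2 ∈ Icc (0 : ℝ) 16 :=
  ⟨by positivity, by nlinarith [hr.1, hr.2]⟩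

theorem G_ne (hI : GoodInt m β G C₀ ε ϑ ρb) {r : ℝ} (hr : r ∈ Icc (0 : ℝ) 4) : G (r ^ 2) ≠ 0 := by
  intro h
  have := hI.lower _ (sq_mem hr)
  rw [h, norm_zero, mul_zero] at this
  linarith

theorem C₀_nonneg (hI : GoodInt m β G C₀ ε ϑ ρb) : 0 ≤ C₀ :=
  (norm_nonneg _).trans (hI.deriv_bd 0 ⟨le_rfl, by norm_num⟩)

theorem G_sq_le (hI : GoodInt m β G C₀ ε ϑ ρb) {r : ℝ} (hr : r ∈ Icc (0 : ℝ) 4) :
    ‖G (r ^ 2)‖ ^ 2 ≤ 2 := by
  by_contra h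
  have h1 : 1 ≤ ‖G (r ^ 2)‖ ^ 2 := by linarith [not_le.1 h]
  have h2 := hI.upper _ (sq_mem hr)
  rw [pow_mul] at h2
  have h3 := pow_le_pow_right₀ h1 hI.one_le
  rw [pow_one] at h3
  exact h (h3.trans h2)

theorem wm_nonneg {r : ℝ} (hr : 0 ≤ r) : 0 ≤ wm G r := by unfold wm; positivity

theorem wm_le (hI : GoodInt m β G C₀ ε ϑ ρb) {r : ℝ} (hr : r ∈ Icc (0 : ℝ) 4) :
    wm G r ≤ 4 ^ 11 * 2 :=
  mul_le_mul (pow_le_pow_left₀ hr.1 hr.2 11) (G_sq_le hI hr) (by positivity) (by positivity)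

theorem cont_Qr (hG : IsProfile m β G) : Continuous (Qr G) :=
  hG.smooth.continuous.comp (continuous_pow 2)

theorem cont_wm (hG : IsProfile m β G) : Continuous (wm G) :=
  (continuous_pow 11).mul ((cont_Qr hG).norm.pow 2)

theorem cont_al (hG : IsProfile m β G) (hI : GoodInt m β G C₀ ε ϑ ρb) (hf : BddC 30 f)
    (hg : BddC 30 g) : ContinuousOn (al G f g) (Icc 0 4) := fun _ hr =>
  (contDiffAt_al hG hf hg (G_ne hI hr)).1.continuousAt.continuousWithinAt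

theorem ii {u : ℝ → ℝ} (h : ContinuousOn u (Icc 0 4)) {a b : ℝ} (ha : a ∈ Icc (0 : ℝ) 4)
    (hb : b ∈ Icc (0 : ℝ) 4) : IntervalIntegrable u volume a b :=
  (h.mono (uIcc_subset_Icc ha hb)).intervalIntegrable

theorem int_mono {u : ℝ → ℝ} (h : ContinuousOn u (Icc 0 4)) (h0 : ∀ x ∈ Icc (0 : ℝ) 4, 0 ≤ u x)
    {a b : ℝ} (ha : 0 ≤ a) (hab : a ≤ b) (hb : b ≤ 4) :
    ∫ x in (0 : ℝ)..a, u x ≤ ∫ x in (0 : ℝ)..b, u x := by
  have h₀ : (0 : ℝ) ∈ Icc (0 : ℝ) 4 := ⟨le_rfl, by norm_num⟩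
  have h₁ : a ∈ Icc (0 : ℝ) 4 := ⟨ha, hab.trans hb⟩
  have h₂ : b ∈ Icc (0 : ℝ) 4 := ⟨ha.trans hab, hb⟩
  rw [← intervalIntegral.integral_add_adjacent_intervals (ii h h₀ h₁) (ii h h₁ h₂)]
  exact le_add_of_nonneg_right (intervalIntegral.integral_nonneg hab fun x hx =>
    h0 x ⟨ha.trans hx.1, hx.2.trans hb⟩)

theorem La_split (hG : IsProfile m β G) (hI : GoodInt m β G C₀ ε ϑ ρb) (hf : BddC 30 f)
    (hg : BddC 30 g) {r₁ r₀ A : ℝ} (h₁ : 0 ≤ r₁) (h₂ : r₁ ≤ r₀) (h₃ : r₀ ≤ 4)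
    (hA : ∀ r ∈ Icc r₁ r₀, ‖al G f g r‖ ^ 2 ≤ A) :
    La G f g r₀ ≤ La G f g r₁ + (r₀ - r₁) * (4 ^ 11 * 2 * A) := by
  have hc : ContinuousOn (fun r => wm G r * ‖al G f g r‖ ^ 2) (Icc 0 4) :=
    (cont_wm hG).continuousOn.mul ((cont_al hG hI hf hg).norm.pow 2)
  have a₀ : (0 : ℝ) ∈ Icc (0 : ℝ) 4 := ⟨le_rfl, by norm_num⟩
  have a₁ : r₁ ∈ Icc (0 : ℝ) 4 := ⟨h₁, h₂.trans h₃⟩
  have a₂ : r₀ ∈ Icc (0 : ℝ) 4 := ⟨h₁.trans h₂, h₃⟩
  unfold La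
  rw [← intervalIntegral.integral_add_adjacent_intervals (ii hc a₀ a₁) (ii hc a₁ a₂)]
  refine add_le_add le_rfl ?_
  rw [← smul_eq_mul (r₀ - r₁), ← intervalIntegral.integral_const]
  refine intervalIntegral.integral_mono_on h₂ (ii hc a₁ a₂) intervalIntegrable_const fun x hx => ?_
  exact mul_le_mul (wm_le hI ⟨h₁.trans hx.1, hx.2.trans h₃⟩) (hA x hx) (by positivity)
    (by positivity)

theorem La_nonneg {r : ℝ} (hr : 0 ≤ r) : 0 ≤ La G f g r :=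
  intervalIntegral.integral_nonneg hr fun x hx => mul_nonneg (wm_nonneg hx.1) (by positivity)

theorem La_le_Pa (hG : IsProfile m β G) (hI : GoodInt m β G C₀ ε ϑ ρb) (hf : BddC 30 f)
    (hg : BddC 30 g) {r₁ r₀ : ℝ} (h₁ : 0 ≤ r₁) (h₂ : r₁ ≤ r₀) (h₃ : r₀ ≤ 4)
    (hc : ∀ ρ ∈ Icc (0 : ℝ) (r₁ ^ 2), 1 / 10 ≤ ‖G ρ‖ ^ (2 * m)) :
    m * La G f g r₁ ≤ 5 * Pa m G f g r₀ := by
  have c₁ : ContinuousOn (fun r => wm G r * ‖al G f g r‖ ^ 2) (Icc 0 4) :=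
    (cont_wm hG).continuousOn.mul ((cont_al hG hI hf hg).norm.pow 2)
  have c₂ : Continuous fun r : ℝ => Pf m G (r ^ 2) :=
    continuous_const.mul ((cont_Qr hG).norm.pow (2 * m))
  have c₃ : ContinuousOn (fun r => wm G r * Pf m G (r ^ 2) * ‖al G f g r‖ ^ 2) (Icc 0 4) :=
    ((cont_wm hG).mul c₂).continuousOn.mul ((cont_al hG hI hf hg).norm.pow 2)
  have a₀ : (0 : ℝ) ∈ Icc (0 : ℝ) 4 := ⟨le_rfl, by norm_num⟩
  have a₁ : r₁ ∈ Icc (0 : ℝ) 4 := ⟨h₁, h₂.trans h₃⟩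
  have b₁ : Pa m G f g r₁ ≤ Pa m G f g r₀ := int_mono c₃ (fun x hx =>
    mul_nonneg (mul_nonneg (wm_nonneg hx.1) (by unfold Pf; positivity)) (by positivity)) h₁ h₂ h₃
  refine le_trans ?_ (mul_le_mul_of_nonneg_left b₁ (by norm_num))
  unfold La Pa
  rw [← intervalIntegral.integral_const_mul, ← intervalIntegral.integral_const_mul]
  refine intervalIntegral.integral_mono_on h₁ ((ii c₁ a₀ a₁).const_mul _)
    ((ii c₃ a₀ a₁).const_mul _) fun x hx => ?_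
  have d₁ := hc (x ^ 2) ⟨by positivity, pow_le_pow_left₀ hx.1 hx.2 2⟩
  have d₂ : (m : ℝ) ≤ 5 * Pf m G (x ^ 2) := by
    unfold Pf
    nlinarith [(Nat.cast_nonneg m : (0 : ℝ) ≤ m)]
  have d₃ : 0 ≤ wm G x * ‖al G f g x‖ ^ 2 := mul_nonneg (wm_nonneg hx.1) (by positivity)
  nlinarith

theorem Lc_nonneg (l : ℕ) : 0 ≤ Lc l := by unfold Lc; positivity

theorem N2_nonneg {r : ℝ} (hr : 0 ≤ r) : 0 ≤ N2 l f g r :=
  intervalIntegral.integral_nonneg hr fun x hx => by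
    have := hx.1
    have := Lc_nonneg l
    positivity

theorem N2_mono (hf : BddC 30 f) (hg : BddC 30 g) {r₁ r₀ : ℝ} (h₁ : 0 ≤ r₁) (h₂ : r₁ ≤ r₀)
    (h₃ : r₀ ≤ 4) : N2 l f g r₁ ≤ N2 l f g r₀ := by
  have cf := hf.smooth.continuous
  have cg := hg.smooth.continuous
  have cf' := hf.smooth.continuous_deriv (by norm_num)
  have cg' := hg.smooth.continuous_deriv (by norm_num)
  refine int_mono ?_ (fun x hx => ?_) h₁ h₂ h₃
  · have e : (fun r : ℝ => r ^ 11 * (‖deriv f r‖ ^ 2 + ‖deriv g r‖ ^ 2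
        + (Lc l / r ^ 2 + 1) * (‖f r‖ ^ 2 + ‖g r‖ ^ 2))) = fun r : ℝ =>
        r ^ 11 * (‖deriv f r‖ ^ 2 + ‖deriv g r‖ ^ 2)
          + (Lc l * r ^ 9 + r ^ 11) * (‖f r‖ ^ 2 + ‖g r‖ ^ 2) := by
      funext r
      rcases eq_or_ne r 0 with rfl | hr
      · simp
      · field_simp
    rw [e]
    fun_prop
  · have := hx.1
    have := Lc_nonneg l
    positivity

theorem deriv_Qr (hG : IsProfile m β G) (r : ℝ) : deriv (Qr G) r = 2 * r * deriv G (r ^ 2) :=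
  (hasDerivAt_sq (hG.smooth.differentiable (by simp) _)).deriv

theorem sym_le (hG : IsProfile m β G) (hI : GoodInt m β G C₀ ε ϑ ρb) {c₀ c₁ c₂ : ℂ} {N L : ℝ}
    (h₀ : ‖c₀‖ ≤ N) (h₁ : ‖c₁‖ ≤ N) (h₂ : ‖c₂‖ ≤ N) (hL : ‖Lam m β‖ ≤ L) {r : ℝ}
    (hr : r ∈ Icc (0 : ℝ) 4) : ‖symF m β G l c₀ c₁ c₂ r‖ ≤ N * (2 + 2 * L + 16 * C₀) := by
  have hC := C₀_nonneg hI
  have hN : 0 ≤ N := (norm_nonneg _).trans h₀
  have hL0 : 0 ≤ L := (norm_nonneg _).trans hL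
  have a₁ : ‖Qr G r‖ ≤ 2 := by
    have := G_sq_le hI hr
    unfold Qr
    nlinarith [norm_nonneg (G (r ^ 2))]
  have a₂ : ‖deriv (Qr G) r‖ ≤ 8 * C₀ := by
    rw [deriv_Qr hG, norm_mul, norm_mul, Complex.norm_two, Complex.norm_real,
      Real.norm_of_nonneg hr.1]
    exact mul_le_mul (by linarith [hr.2]) (hI.deriv_bd _ (sq_mem hr)) (norm_nonneg _) (by norm_num)
  unfold symF
  split_ifs
  · have b₁ : ‖c₀ * (I * Qr G r)‖ ≤ N * 2 := by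
      rw [norm_mul, norm_mul, norm_I, one_mul]
      exact mul_le_mul h₀ a₁ (norm_nonneg _) hN
    have b₂ : ‖Lam m β * Qr G r‖ ≤ L * 2 := by
      rw [norm_mul]; exact mul_le_mul hL a₁ (norm_nonneg _) hL0
    have b₃ : ‖(r : ℂ) / 2 * deriv (Qr G) r‖ ≤ 2 * (8 * C₀) := by
      rw [norm_mul, norm_div, Complex.norm_two, Complex.norm_real, Real.norm_of_nonneg hr.1]
      exact mul_le_mul (by linarith [hr.2]) a₂ (norm_nonneg _) (by norm_num)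
    have b₄ : ‖c₁ * DQr m β G r‖ ≤ N * (L * 2 + 2 * (8 * C₀)) := by
      rw [norm_mul]
      exact mul_le_mul h₁ ((norm_add_le _ _).trans (add_le_add b₂ b₃)) (norm_nonneg _) hN
    refine (norm_add_le _ _).trans ((add_le_add b₁ b₄).trans (le_of_eq ?_))
    ring
  · rw [norm_mul]
    exact mul_le_mul h₂ (by linarith) (norm_nonneg _) hN
  · rw [norm_zero]; positivity

theorem L2_le (hG : IsProfile m β G) (hI : GoodInt m β G C₀ ε ϑ ρb) {c₀ c₁ c₂ : ℂ} {N L : ℝ}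
    (h₀ : ‖c₀‖ ≤ N) (h₁ : ‖c₁‖ ≤ N) (h₂ : ‖c₂‖ ≤ N) (hL : ‖Lam m β‖ ≤ L) {r₀ : ℝ}
    (hr : r₀ ∈ Icc (0 : ℝ) 4) : L2 (fun r => -I * symF m β G l c₀ c₁ c₂ r)
      (fun r => I * symG m β G l c₀ c₁ c₂ r) r₀
        ≤ 4 ^ 11 * (2 * (N * (2 + 2 * L + 16 * C₀)) ^ 2) * 4 := by
  unfold L2
  refine (Real.le_norm_self _).trans ((intervalIntegral.norm_integral_le_of_norm_le_const
    (C := 4 ^ 11 * (2 * (N * (2 + 2 * L + 16 * C₀)) ^ 2)) fun x hx => ?_).trans ?_)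
  · rw [uIoc_of_le hr.1] at hx
    have hx' : x ∈ Icc (0 : ℝ) 4 := ⟨hx.1.le, hx.2.trans hr.2⟩
    have hx0 := hx'.1
    have a₁ := sym_le (l := l) hG hI h₀ h₁ h₂ hL hx'
    have a₂ := sym_le (l := l) (N := N) hG hI (c₀ := conj c₀) (c₁ := conj c₁) (c₂ := conj c₂)
      (by rwa [Complex.norm_conj]) (by rwa [Complex.norm_conj]) (by rwa [Complex.norm_conj]) hL hx'
    rw [Real.norm_of_nonneg (by positivity), norm_mul, norm_mul, norm_neg, norm_I, one_mul,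
      one_mul, symG_eq, Complex.norm_conj]
    refine mul_le_mul (pow_le_pow_left₀ hx0 hx'.2 11) ?_ (by positivity) (by positivity)
    linarith [pow_le_pow_left₀ (norm_nonneg _) a₁ 2, pow_le_pow_left₀ (norm_nonneg _) a₂ 2]
  · rw [sub_zero, abs_of_nonneg hr.1]
    exact mul_le_mul_of_nonneg_left hr.2 (by positivity)

theorem et_src_le (hI : GoodInt m β G C₀ ε ϑ ρb) {c₀ c₁ c₂ : ℂ} {N κ : ℝ}
    (h₁ : ‖c₁‖ ≤ N) (h₂ : ‖c₂‖ ≤ N) {r : ℝ} (hr : r ∈ Icc (0 : ℝ) 4)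
    (hκ : ‖deriv (Qr G) r‖ ≤ κ) : ‖et G (fun r => -I * symF m β G l c₀ c₁ c₂ r)
      (fun r => I * symG m β G l c₀ c₁ c₂ r) r‖ ≤ N * (1 / (2 * (m : ℝ)) + 2 * (κ * C₀)) := by
  have hC := C₀_nonneg hI
  have hN : 0 ≤ N := (norm_nonneg _).trans h₁
  have hκ0 : 0 ≤ κ := (norm_nonneg _).trans hκ
  have hQ : Qr G r ≠ 0 := G_ne hI hr
  have hQ' : conj (Qr G r) ≠ 0 := by simpa using hQ
  have a₁ : ‖deriv (Qr G) r / Qr G r‖ ≤ κ * C₀ := by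
    rw [norm_div, div_le_iff₀ (norm_pos_iff.2 hQ), mul_assoc]
    exact hκ.trans (le_mul_of_one_le_right hκ0 (hI.lower _ (sq_mem hr)))
  set w := deriv (Qr G) r / Qr G r with hw
  have a₂ : |w.re| ≤ κ * C₀ := (Complex.abs_re_le_norm w).trans a₁
  have e₁ : deriv (Qr G) r = w * Qr G r := by rw [hw]; field_simp
  have e₂ : conj w = 2 * (w.re : ℂ) - w := by
    apply Complex.ext <;> simp
    ring
  have hm : (0 : ℝ) ≤ 1 / (2 * (m : ℝ)) := by positivity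
  unfold et symF symG DQr
  simp only
  split_ifs
  · have e : (-I * (c₀ * (I * Qr G r) + c₁ * (Lam m β * Qr G r + r / 2 * deriv (Qr G) r)) / Qr G r
        - I * (c₀ * conj (I * Qr G r) + c₁ * conj (Lam m β * Qr G r + r / 2 * deriv (Qr G) r))
          / conj (Qr G r)) / (2 * I)
        = -(c₁ * ((1 / (2 * (m : ℝ)) + r / 2 * w.re : ℝ) : ℂ)) := by
      rw [e₁]
      simp only [map_mul, map_add, map_div₀, conj_I, conj_ofReal, e₂, Lam, map_sub, map_one,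
        map_natCast, map_ofNat]
      push_cast
      field_simp
      ring
    rw [e, norm_neg, norm_mul, Complex.norm_real, Real.norm_eq_abs]
    refine mul_le_mul h₁ ((abs_add_le _ _).trans (add_le_add (abs_of_nonneg hm).le ?_))
      (abs_nonneg _) hN
    rw [abs_mul, abs_of_nonneg (by linarith [hr.1] : 0 ≤ r / 2)]
    exact mul_le_mul (by linarith [hr.2]) a₂ (abs_nonneg _) (by norm_num)
  · have e : (-I * (c₂ * deriv (Qr G) r) / Qr G r - I * (c₂ * conj (deriv (Qr G) r))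
          / conj (Qr G r)) / (2 * I) = -(c₂ * (w.re : ℂ)) := by
      rw [e₁]
      simp only [map_mul, e₂]
      field_simp
      ring
    rw [e, norm_neg, norm_mul, Complex.norm_real, Real.norm_eq_abs]
    exact mul_le_mul h₂ (by nlinarith [mul_nonneg hκ0 hC]) (abs_nonneg _) hN
  · simp only [mul_zero, zero_div, sub_zero, norm_zero]
    positivity

theorem deriv_et (hG : IsProfile m β G) (hf : BddC 30 f) (hg : BddC 30 g) {r : ℝ}
    (h0 : G (r ^ 2) ≠ 0) : deriv (et G f g) r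
      = ((deriv f r * G (r ^ 2) - f r * (2 * r * deriv G (r ^ 2))) / G (r ^ 2) ^ 2
        - (deriv g r * conj (G (r ^ 2)) - g r * conj (2 * r * deriv G (r ^ 2)))
          / conj (G (r ^ 2)) ^ 2) / (2 * I) := by
  have a₁ : HasDerivAt f (deriv f r) r := (hf.smooth.differentiable (by simp) r).hasDerivAt
  have a₂ : HasDerivAt g (deriv g r) r := (hg.smooth.differentiable (by simp) r).hasDerivAt
  have a₃ : HasDerivAt (Qr G) (2 * r * deriv G (r ^ 2)) r :=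
    hasDerivAt_sq (hG.smooth.differentiable (by simp) _)
  have a₄ : HasDerivAt (fun x => conj (Qr G x)) (conj (2 * r * deriv G (r ^ 2))) r := a₃.star
  exact (((a₁.div a₃ h0).sub (a₂.div a₄ (by simpa [Qr] using h0))).div_const (2 * I)).deriv

end Vale.Agent.P139Z.BF
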