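import Vale.Agent.P139Z.BF.Out
import Vale.Agent.P139Z.BF.Int

/-! Block BF, auxiliary file: the boundary conditions of the limit. -/

open Set Filter Topology MeasureTheory Complex
open scoped NNReal ENNReal ComplexConjugate ContDiff

namespace Vale.Agent.P139Z.BF

theorem limit_zero {E : ℝ → ℂ} {e : ℕ → ℝ → ℂ} {R D : ℝ} {y : ℂ} (hc : Tendsto E (𝓝[>] R) (𝓝 y))
    (ht : ∀ᶠ r in 𝓝[>] R, Tendsto (fun n => e n r) atTop (𝓝 (E r)))
    (hs : ∀ η : ℝ, 0 < η → ∀ᶠ r in 𝓝[>] R, ∀ᶠ n in atTop, ‖e n r‖ ≤ η * D) : y = 0 := by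
  have h1 : ∀ η : ℝ, 0 < η → ‖y‖ ≤ η * D := fun η hη => by
    refine le_of_tendsto hc.norm ?_
    filter_upwards [ht, hs η hη] with r h₁ h₂ using le_of_tendsto h₁.norm h₂
  have h2 : Tendsto (fun η : ℝ => η * D) (𝓝[>] 0) (𝓝 0) := by
    have := ((continuous_mul_const D).tendsto 0).mono_left (nhdsWithin_le_nhds (s := Ioi 0))
    simpa using this
  refine norm_le_zero_iff.1 (ge_of_tendsto h2 ?_)
  filter_upwards [self_mem_nhdsWithin] with η hη using h1 η hη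

theorem absorb {Cm Ca Cb W t X L₁ L₂ P b Φ S M B : ℝ} (hm : 0 < Cm) (ha : 0 < Ca) (hb : 0 < Cb)
    (hW : 0 < W) (ht : 0 < t) (hX : 0 ≤ X) (hL : 0 ≤ L₁) (h1 : X ≤ Cm * (L₂ + S + Φ + b))
    (h2 : L₂ ≤ L₁ + 2 * t * (W * (Cb * (L₁ / 1 + (2 * t + 1) * X)))) (h3 : M * L₁ ≤ 5 * P)
    (h4 : P ≤ Ca * (X + b + S)) (b₁ : S ≤ B) (b₂ : Φ ≤ B) (b₃ : b ≤ B) (ht' : t ≤ 1 / 2)
    (ht'' : 16 * t * (W * Cb * Cm) ≤ 1) (hM : 20 * (Cm * (1 + W * Cb)) * Ca ≤ M) :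
    X ≤ B + 6 * Cm * B := by
  have k₀ : 0 < W * Cb * Cm := by positivity
  have k₁ : 4 * (Cm * (1 + W * Cb)) * L₁ ≤ X + 2 * B := by
    refine le_of_mul_le_mul_left ?_ (show 0 < 5 * Ca by positivity)
    nlinarith [mul_le_mul_of_nonneg_right hM hL]
  have k₂ : Cm * L₂ ≤ Cm * L₁ + 2 * t * (W * Cb * Cm * L₁)
      + (2 * t + 1) * (2 * t * (W * Cb * Cm) * X) := by
    refine (mul_le_mul_of_nonneg_left h2 hm.le).trans (le_of_eq ?_)
    ring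
  have k₃ : 2 * t * (W * Cb * Cm * L₁) ≤ W * Cb * Cm * L₁ :=
    mul_le_of_le_one_left (by positivity) (by linarith)
  have k₄ : (2 * t + 1) * (2 * t * (W * Cb * Cm) * X) ≤ 2 * (1 / 8 * X) :=
    mul_le_mul (by linarith) (mul_le_mul_of_nonneg_right (by linarith) hX) (by positivity)
      (by norm_num)
  have k₅ : Cm * (S + Φ + b) ≤ Cm * (3 * B) := mul_le_mul_of_nonneg_left (by linarith) hm.le
  nlinarith

theorem sqrt_facts {Z : ℝ} (h : InZ Z) :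
    Real.sqrt (4 * Z) ^ 2 = 4 * Z ∧ 3 ≤ Real.sqrt (4 * Z) ∧ Real.sqrt (4 * Z) ≤ 3.3 :=
  ⟨Real.sq_sqrt (by linarith [h.1]), Real.le_sqrt_of_sq_le (by linarith [h.1]),
    Real.sqrt_le_iff.2 ⟨by norm_num, by linarith [h.2]⟩⟩

theorem cont_src {m : ℕ} {β : ℝ} {G : ℝ → ℂ} (hG : IsProfile m β G) (l : ℕ) (c₀ c₁ c₂ : ℂ) :
    (Continuous fun r => -I * symF m β G l c₀ c₁ c₂ r) ∧
      Continuous fun r => I * symG m β G l c₀ c₁ c₂ r :=
  ⟨continuous_const.mul (bddC_sym hG l c₀ c₁ c₂).1.smooth.continuous,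
    continuous_const.mul (bddC_sym hG l c₀ c₁ c₂).2.smooth.continuous⟩

variable {m : ℕ → ℕ} {β : ℕ → ℝ} {G : ℕ → ℝ → ℂ} {βi Z : ℝ} {U : ℝ → ℂ} {l : ℕ} {K : ℝ}
  {lam : ℕ → ℂ} {lami : ℂ} {f g : ℕ → ℝ → ℂ} {c₀ c₁ c₂ : ℕ → ℂ} {d₀ d₁ d₂ : ℂ} {F H : ℝ → ℂ}

theorem kappa_small (h : IsFamily m β G βi Z U) {η : ℝ} (hη : 0 < η) :
    ∀ᶠ r in 𝓝[>] Real.sqrt (4 * Z), ∀ᶠ n in atTop, ∀ x ∈ Icc 0 r, ‖deriv (Qr (G n)) x‖ ≤ η := by
  obtain ⟨e₁, e₂, e₃⟩ := sqrt_facts h.lim.inZ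
  have hZ : 0 < 4 * Z := by linarith [h.lim.inZ.1]
  have hc := (at_of_on (on_deriv h.lim.symb.smooth) hZ).continuousAt
  obtain ⟨δ, hδ, hc'⟩ := Metric.continuousAt_iff.1 hc (η / 16) (by positivity)
  have t1 : Tendsto (fun r : ℝ => r ^ 2) (𝓝[>] Real.sqrt (4 * Z)) (𝓝 (4 * Z)) := by
    have := ((continuous_pow 2).tendsto (Real.sqrt (4 * Z))).mono_left
      (nhdsWithin_le_nhds (s := Ioi (Real.sqrt (4 * Z))))
    rwa [e₁] at this
  filter_upwards [t1.eventually (gt_mem_nhds (show 4 * Z < 4 * Z + δ by linarith)),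
    Ioc_mem_nhdsGT (show Real.sqrt (4 * Z) < 4 by linarith)] with r hr₁ hr₂
  filter_upwards [Metric.tendstoUniformlyOn_iff.1 h.conv_in' (η / 2) (by positivity),
    Metric.tendstoUniformlyOn_iff.1 (h.conv_out' 16) (η / 16) (by positivity)] with n h₁ h₂ x hx
  have hx4 : x ∈ Icc (0 : ℝ) 4 := ⟨hx.1, hx.2.trans hr₂.2⟩
  rw [deriv_Qr (h.prof n), mul_assoc, norm_mul, Complex.norm_two]
  rcases le_total (x ^ 2) (4 * Z) with hx' | hx'
  · have := h₁ _ ⟨by positivity, hx'⟩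
    rw [dist_comm, dist_zero_right, Real.sqrt_sq hx.1] at this
    linarith
  · have a₁ := h₂ _ ⟨hx', (sq_mem hx4).2⟩
    have a₂ := hc' (x := x ^ 2) (by
      rw [Real.dist_eq, abs_of_nonneg (by linarith)]
      linarith [pow_le_pow_left₀ hx.1 hx.2 2])
    rw [h.lim.der, dist_zero_right] at a₂
    rw [dist_comm, dist_eq_norm] at a₁
    have a₃ := norm_add_le (deriv (G n) (x ^ 2) - deriv U (x ^ 2)) (deriv U (x ^ 2))
    rw [sub_add_cancel] at a₃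
    rw [norm_mul, Complex.norm_real, Real.norm_of_nonneg hx.1]
    have a₄ : x * ‖deriv (G n) (x ^ 2)‖ ≤ 4 * (η / 8) :=
      mul_le_mul hx4.2 (by linarith) (norm_nonneg _) (by norm_num)
    linarith

namespace Seq

theorem energy (s : Seq m β G βi Z U l K lam lami f g c₀ c₁ c₂ d₀ d₁ d₂ F H) :
    ∃ C₀ ε ϑ ρb r N : ℝ, Real.sqrt (4 * Z) < r ∧ r ≤ 4 ∧ ∀ᶠ n in atTop,
      GoodInt (m n) (β n) (G n) C₀ ε ϑ ρb ∧ N2 l (f n) (g n) r ≤ N ∧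
        Pa (m n) (G n) (f n) (g n) r ≤ N := by
  obtain ⟨e₁, e₂, e₃⟩ := sqrt_facts s.fam.lim.inZ
  have hZ := s.fam.lim.inZ
  set R := Real.sqrt (4 * Z) with hR
  obtain ⟨C₀, c, C₁, -, hg⟩ := s.fam.good
  obtain ⟨ε₀, hε₀, ϑ₀, hϑ₀, Cm, hCm, hmain⟩ := int_main C₀ K
  obtain ⟨δ, hδ, hδ1, hg'⟩ := hg ε₀ ϑ₀ hε₀ hϑ₀
  obtain ⟨Ca, hCa, haux⟩ := int_aux C₀
  obtain ⟨Cb, hCb, hal⟩ := al_bound C₀
  obtain ⟨t, ht, ht₁, ht₂⟩ : ∃ t : ℝ, 0 < t ∧ t ≤ δ / 4 ∧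
      16 * t * (4 ^ 11 * 2 * Cb * Cm) ≤ 1 := by
    refine ⟨min (δ / 4) (1 / (16 * (4 ^ 11 * 2 * Cb * Cm))), by positivity, min_le_left _ _, ?_⟩
    have := min_le_right (δ / 4) (1 / (16 * (4 ^ 11 * 2 * Cb * Cm)))
    rw [le_div_iff₀ (by positivity)] at this
    linarith
  have hr : 0 < R + t := by linarith
  obtain ⟨a₀, a₁, a₂, a₃⟩ := s.rdata hr (by nlinarith)
  have tim := (Complex.continuous_im.tendsto _).comp s.tl
  obtain ⟨B₁, hB₁⟩ := ((((a₁.norm.pow 2).add ((tim.neg.sub_const (Lc l / (R + t) ^ 2)).mul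
    (a₀.norm.pow 2))).add ((a₃.norm.pow 2).add ((tim.sub_const (Lc l / (R + t) ^ 2)).mul
    (a₂.norm.pow 2)))).max (tendsto_const_nhds (x := (0 : ℝ)))).isBoundedUnder_le
  obtain ⟨B₂, hB₂⟩ := ((a₀.norm.add a₂.norm).mul
    (((a₀.norm.add a₂.norm).add a₁.norm).add a₃.norm)).isBoundedUnder_le
  set B₃ : ℝ := 4 ^ 11 * (2 * ((‖d₀‖ + ‖d₁‖ + ‖d₂‖ + 1)
    * (2 + 2 * (‖-I * βi‖ + 1) + 16 * C₀)) ^ 2) * 4 with hB₃
  set B := max B₁ (max B₂ B₃) with hB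
  refine ⟨C₀, ε₀, ϑ₀, 4 * Z + 2 * δ, R + t, max (B + 6 * Cm * B) (Ca * (B + 6 * Cm * B + B + B)),
    by linarith, by linarith, ?_⟩
  have tm : Tendsto (fun n => (m n : ℝ)) atTop atTop :=
    tendsto_natCast_atTop_atTop.comp s.fam.m_tendsto
  filter_upwards [hg' δ hδ le_rfl, eventually_map.1 hB₁, eventually_map.1 hB₂, ev_norm_le s.t₀,
    ev_norm_le s.t₁, ev_norm_le s.t₂, ev_norm_le (tendsto_Lam s.fam),
    s.fam.core (4 * Z - (R - t) ^ 2) (by nlinarith),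
    tm.eventually_ge_atTop (20 * (Cm * (1 + 4 ^ 11 * 2 * Cb)) * Ca)]
    with n ⟨hI, _⟩ h₁ h₂ h₃ h₄ h₅ h₆ h₇ h₈
  rw [sub_sub_cancel] at h₇
  have hG := s.fam.prof n
  have sol : RSol _ _ _ _ _ _ _ _ _ := s.sol n
  obtain ⟨cF, cG⟩ := cont_src hG l (c₀ n) (c₁ n) (c₂ n)
  have p₀ := norm_nonneg d₀
  have p₁ := norm_nonneg d₁
  have p₂ := norm_nonneg d₂
  have b₃ := (L2_le (l := l) (N := ‖d₀‖ + ‖d₁‖ + ‖d₂‖ + 1) (c₀ := c₀ n) (c₁ := c₁ n) (c₂ := c₂ n)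
    hG hI (by linarith) (by linarith) (by linarith) h₆ (r₀ := R + t)
    ⟨by linarith, by linarith⟩).trans ((le_max_right B₂ B₃).trans (le_max_right B₁ _))
  have b₁ : max (Phi l (-(lam n).im) (f n) (R + t) + Phi l (lam n).im (g n) (R + t)) 0 ≤ B :=
    le_trans h₁ (le_max_left _ _)
  have b₂ : bd1 (f n) (g n) (R + t) ≤ B :=
    le_trans h₂ ((le_max_left B₂ B₃).trans (le_max_right B₁ _))
  have k₁ := hmain _ _ _ _ _ _ _ _ _ _ (R + t) hG hI (by linarith [hZ.2]) sol cF cG (s.re n)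
    ((Complex.re_le_norm _).trans (s.bd n)) (by linarith) (by nlinarith)
  have k₂ := La_split hG hI sol.bf sol.bg (r₁ := R - t) (r₀ := R + t) (by linarith) (by linarith)
    (by linarith) (hal _ _ _ _ _ _ l _ _ _ _ hG hI sol.bf sol.bg (by linarith) (by linarith)
      (by linarith) 1 one_pos le_rfl)
  have k₃ := La_le_Pa hG hI sol.bf sol.bg (r₁ := R - t) (r₀ := R + t) (by linarith) (by linarith)
    (by linarith) h₇
  have k₄ := (haux _ _ _ _ _ _ _ _ _ _ _ _ (R + t) hG hI sol cF cG (by linarith) (by linarith)).1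
  rw [show R + t - (R - t) = 2 * t by ring] at k₂
  have k₅ := absorb hCm hCa hCb (by positivity) ht (N2_nonneg hr.le) (La_nonneg (by linarith)) k₁
    k₂ k₃ k₄ b₃ b₁ b₂ (by linarith) ht₂ h₈
  exact ⟨hI, k₅.trans (le_max_left _ _), (k₄.trans (mul_le_mul_of_nonneg_left (by linarith)
    hCa.le)).trans (le_max_right _ _)⟩

theorem small (s : Seq m β G βi Z U l K lam lami f g c₀ c₁ c₂ d₀ d₁ d₂ F H) :
    ∃ C₀ ε ϑ ρb N : ℝ, ∀ η : ℝ, 0 < η → ∀ᶠ r in 𝓝[>] Real.sqrt (4 * Z), r ≤ 4 ∧ ∀ᶠ n in atTop,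
      GoodInt (m n) (β n) (G n) C₀ ε ϑ ρb ∧ N2 l (f n) (g n) r ≤ N ∧
        ‖al (G n) (f n) (g n) r‖ ≤ η ∧ La (G n) (f n) (g n) r ≤ η ^ 2 := by
  obtain ⟨C₀, ε, ϑ, ρb, r₂, N, hr₂, hr₂', he⟩ := s.energy
  obtain ⟨e₁, e₂, e₃⟩ := sqrt_facts s.fam.lim.inZ
  set R := Real.sqrt (4 * Z) with hR
  obtain ⟨Cb, hCb, hal⟩ := al_bound C₀
  refine ⟨C₀, ε, ϑ, ρb, N, fun η hη => ?_⟩
  have t1 : Tendsto (fun r : ℝ => Cb * (3 * (r - R) * N)) (𝓝[>] R) (𝓝 0) := by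
    have : Continuous fun r : ℝ => Cb * (3 * (r - R) * N) := by fun_prop
    have := (this.tendsto R).mono_left (nhdsWithin_le_nhds (s := Ioi R))
    simpa using this
  filter_upwards [t1.eventually (gt_mem_nhds (show 0 < η ^ 2 by positivity)), Ioc_mem_nhdsGT hr₂,
    Ioc_mem_nhdsGT (show R < R + 1 / (4 * (4 ^ 11 * 2)) by norm_num)] with r h₁ h₂ h₃
  refine ⟨h₂.2.trans hr₂', ?_⟩
  obtain ⟨t, rfl⟩ : ∃ t, r = R + t := ⟨r - R, by ring⟩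
  have ht : 0 < t := by linarith [h₂.1]
  have ht₁ : t ≤ 1 / (4 * (4 ^ 11 * 2)) := by linarith [h₃.2]
  have ht₂ : t ≤ 1 := ht₁.trans (by norm_num)
  rw [add_sub_cancel_left] at h₁
  have tL : Tendsto (fun n => La (G n) (f n) (g n) (R - t)) atTop (𝓝 0) := by
    have t2 := (tendsto_inv_m s.fam.m_tendsto).const_mul (10 * N)
    rw [mul_zero] at t2
    refine squeeze_zero' (Eventually.of_forall fun n => La_nonneg (by linarith)) ?_ t2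
    filter_upwards [he, s.fam.core (4 * Z - (R - t) ^ 2) (by nlinarith)] with n ⟨hI, _, hP⟩ h₇
    rw [sub_sub_cancel] at h₇
    have k := La_le_Pa (s.fam.prof n) hI (s.sol n).bf (s.sol n).bg (r₁ := R - t) (r₀ := r₂)
      (by linarith) (by linarith [h₂.2]) hr₂' h₇
    have hm : (0 : ℝ) < m n := by exact_mod_cast s.one n
    rw [mul_one_div, le_div_iff₀ (by positivity)]
    linarith
  have tA := ((tL.div_const t).add_const (3 * t * N)).const_mul Cb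
  rw [zero_div, zero_add] at tA
  filter_upwards [he, tA.eventually (ge_mem_nhds h₁),
    tL.eventually (ge_mem_nhds (show 0 < η ^ 2 / 2 by positivity))] with n ⟨hI, hN, _⟩ h₄ h₅
  have hG := s.fam.prof n
  have a₁ : N2 l (f n) (g n) (R + t) ≤ N :=
    (N2_mono (s.sol n).bf (s.sol n).bg (by linarith) h₂.2 hr₂').trans hN
  have a₂ : ∀ x ∈ Icc (R - t) (R + t), ‖al (G n) (f n) (g n) x‖ ^ 2 ≤ η ^ 2 := fun x hx => by
    refine (hal _ _ _ _ _ _ l _ _ _ _ hG hI (s.sol n).bf (s.sol n).bg (by linarith) (by linarith)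
      (h₂.2.trans hr₂') t ht ht₂ x hx).trans (le_trans ?_ h₄)
    rw [show R + t - (R - t) + t = 3 * t by ring]
    gcongr
  refine ⟨hI, a₁, ?_, ?_⟩
  · exact (pow_le_pow_iff_left₀ (norm_nonneg _) hη.le two_ne_zero).1
      (a₂ _ ⟨by linarith, le_rfl⟩)
  · have k := La_split hG hI (s.sol n).bf (s.sol n).bg (r₁ := R - t) (r₀ := R + t) (by linarith)
      (by linarith) (h₂.2.trans hr₂') a₂
    rw [le_div_iff₀ (by positivity)] at ht₁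
    nlinarith [mul_le_mul_of_nonneg_right ht₁ (sq_nonneg η)]

end Seq

/-- The value of `al` in terms of the values of the three functions. -/
noncomputable def Afun (f₀ g₀ u : ℂ) : ℂ := (f₀ / u + g₀ / conj u) / 2

/-- The value of `et' - l et / r` in terms of the values of the functions and derivatives. -/
noncomputable def Efun (l : ℕ) (r f₀ f₁ g₀ g₁ u u₁ : ℂ) : ℂ :=
  ((f₁ * u - f₀ * (2 * r * u₁)) / u ^ 2 - (g₁ * conj u - g₀ * conj (2 * r * u₁)) / conj u ^ 2)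
    / (2 * I) - l / r * ((f₀ / u - g₀ / conj u) / (2 * I))

theorem tcj {ι : Type*} {L : Filter ι} {u : ι → ℂ} {y : ℂ} (h : Tendsto u L (𝓝 y)) :
    Tendsto (fun n => conj (u n)) L (𝓝 (conj y)) :=
  (Complex.continuous_conj.tendsto y).comp h

theorem tendsto_Afun {ι : Type*} {L : Filter ι} {f₀ g₀ u : ι → ℂ} {a b c : ℂ}
    (h₁ : Tendsto f₀ L (𝓝 a)) (h₂ : Tendsto g₀ L (𝓝 b)) (h₃ : Tendsto u L (𝓝 c)) (hc : c ≠ 0) :
    Tendsto (fun n => Afun (f₀ n) (g₀ n) (u n)) L (𝓝 (Afun a b c)) :=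
  ((h₁.div h₃ hc).add (h₂.div (tcj h₃) (by simpa using hc))).div_const 2

theorem tendsto_Efun {ι : Type*} {L : Filter ι} (l : ℕ) {r f₀ f₁ g₀ g₁ u u₁ : ι → ℂ}
    {x a₀ a₁ b₀ b₁ c c₁ : ℂ} (h₀ : Tendsto r L (𝓝 x)) (h₁ : Tendsto f₀ L (𝓝 a₀))
    (h₂ : Tendsto f₁ L (𝓝 a₁)) (h₃ : Tendsto g₀ L (𝓝 b₀)) (h₄ : Tendsto g₁ L (𝓝 b₁))
    (h₅ : Tendsto u L (𝓝 c)) (h₆ : Tendsto u₁ L (𝓝 c₁)) (hx : x ≠ 0) (hc : c ≠ 0) :
    Tendsto (fun n => Efun l (r n) (f₀ n) (f₁ n) (g₀ n) (g₁ n) (u n) (u₁ n)) L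
      (𝓝 (Efun l x a₀ a₁ b₀ b₁ c c₁)) := by
  have hc' : conj c ≠ 0 := by simpa using hc
  have k := (h₀.const_mul 2).mul h₆
  exact (((((h₂.mul h₅).sub (h₁.mul k)).div (h₅.pow 2) (pow_ne_zero 2 hc)).sub
    (((h₄.mul (tcj h₅)).sub (h₃.mul (tcj k))).div ((tcj h₅).pow 2) (pow_ne_zero 2 hc'))).div_const
    _).sub ((tendsto_const_nhds.div h₀ hx).mul
      (((h₁.div h₅ hc).sub (h₃.div (tcj h₅) hc')).div_const _))

theorem Seq.bdry (s : Seq m β G βi Z U l K lam lami f g c₀ c₁ c₂ d₀ d₁ d₂ F H) :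
    F (4 * Z) + conj (H (4 * Z)) = 0 ∧ deriv F (4 * Z) - conj (deriv H (4 * Z)) = 0 := by
  obtain ⟨C₀, ε, ϑ, ρb, N, hs⟩ := s.small
  obtain ⟨e₁, e₂, e₃⟩ := sqrt_facts s.fam.lim.inZ
  have hκ := fun η (hη : 0 < η) => kappa_small s.fam hη
  set R := Real.sqrt (4 * Z) with hR
  have hZ : 0 < 4 * Z := by linarith [s.fam.lim.inZ.1]
  have hR0 : (R : ℂ) ≠ 0 := by exact_mod_cast (show R ≠ 0 by linarith)
  have t0 : Tendsto (fun r : ℝ => (r : ℂ)) (𝓝[>] R) (𝓝 R) :=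
    (continuous_ofReal.tendsto R).mono_left nhdsWithin_le_nhds
  have t1 : Tendsto (fun r : ℝ => r ^ 2) (𝓝[>] R) (𝓝 (4 * Z)) := by
    have := ((continuous_pow 2).tendsto R).mono_left (nhdsWithin_le_nhds (s := Ioi R))
    rwa [e₁] at this
  have tc : ∀ {W : ℝ → ℂ}, ContDiffOn ℝ ∞ W (Ioi 0) →
      Tendsto (fun r : ℝ => W (r ^ 2)) (𝓝[>] R) (𝓝 (W (4 * Z))) := fun h =>
    (at_of_on h hZ).continuousAt.tendsto.comp t1
  have sU := s.fam.lim.symb.smooth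
  have tU := tc sU
  have tU' := tc (on_deriv sU)
  rw [s.fam.lim.val] at tU
  rw [s.fam.lim.der] at tU'
  have tf₀ := (t0.pow l).mul (tc s.sF)
  have tg₀ := (t0.pow l).mul (tcj (tc s.sH))
  have tl : Tendsto (fun r : ℝ => (l : ℂ) / r) (𝓝[>] R) (𝓝 (l / R)) := tendsto_const_nhds.div t0 hR0
  have tf₁ := (t0.pow l).mul ((tl.mul (tc s.sF)).add ((t0.const_mul 2).mul (tc (on_deriv s.sF))))
  have tg₁ := (t0.pow l).mul ((tl.mul (tcj (tc s.sH))).add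
    ((t0.const_mul 2).mul (tcj (tc (on_deriv s.sH)))))
  have ev : ∀ᶠ r in 𝓝[>] R, 0 < r ∧ 4 * Z < r ^ 2 ∧ U (r ^ 2) ≠ 0 := by
    filter_upwards [self_mem_nhdsWithin, tU.eventually_ne one_ne_zero] with r h₁ h₂
    have h₃ : R < r := h₁
    exact ⟨by linarith, by nlinarith, h₂⟩
  have gU := fun r : ℝ => fun h : 4 * Z < r ^ 2 =>
    (s.fam.conv_out (r ^ 2)).tendsto_at ⟨h.le, le_rfl⟩
  have gU' := fun r : ℝ => fun h : 4 * Z < r ^ 2 =>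
    (s.fam.conv_out' (r ^ 2)).tendsto_at ⟨h.le, le_rfl⟩
  have hRl : (R : ℂ) ^ l ≠ 0 := pow_ne_zero l hR0
  constructor
  · have h := limit_zero (e := fun n r => al (G n) (f n) (g n) r) (D := 1)
      (tendsto_Afun tf₀ tg₀ tU one_ne_zero) ?_ fun η hη => ?_
    · simp only [Afun, map_one, div_one, div_eq_zero_iff, ← mul_add] at h
      simpa [hRl] using h
    · filter_upwards [ev] with r ⟨h₁, h₂, h₃⟩
      obtain ⟨a₀, -, a₂, -⟩ := s.rdata h₁ h₂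
      exact tendsto_Afun a₀ a₂ (gU r h₂) h₃
    · filter_upwards [hs η hη] with r hr
      filter_upwards [hr.2] with n hn
      rw [mul_one]
      exact hn.2.2.1
  · obtain ⟨Ch, hCh, hh⟩ := harm_test C₀ K
    have h := limit_zero
      (e := fun n r => deriv (et (G n) (f n) (g n)) r - (l : ℂ) / r * et (G n) (f n) (g n) r)
      (D := Ch * (2 + Real.sqrt N + (‖d₁‖ + ‖d₂‖ + 1) * (1 + 2 * C₀) * 4))
      (tendsto_Efun l t0 tf₀ tf₁ tg₀ tg₁ tU tU' hR0 one_ne_zero) ?_ fun η hη => ?_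
    · have e : Efun l R (R ^ l * F (4 * Z))
          (R ^ l * (l / R * F (4 * Z) + 2 * R * deriv F (4 * Z))) (R ^ l * conj (H (4 * Z)))
          (R ^ l * (l / R * conj (H (4 * Z)) + 2 * R * conj (deriv H (4 * Z)))) 1 0
          = R ^ l * R / I * (deriv F (4 * Z) - conj (deriv H (4 * Z))) := by
        simp only [Efun, map_one, mul_zero, map_zero]
        field_simp
        ring
      rw [e] at h
      exact (mul_eq_zero.1 h).resolve_left (div_ne_zero (mul_ne_zero hRl hR0) I_ne_zero)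
    · filter_upwards [ev, hs 1 one_pos] with r ⟨h₁, h₂, h₃⟩ ⟨h₄, h₅⟩
      obtain ⟨a₀, a₁, a₂, a₃⟩ := s.rdata h₁ h₂
      have hr : (r : ℂ) ≠ 0 := by exact_mod_cast h₁.ne'
      refine (tendsto_Efun l tendsto_const_nhds a₀ a₁ a₂ a₃ (gU r h₂) (gU' r h₂) hr h₃).congr' ?_
      filter_upwards [h₅] with n hn
      rw [deriv_et (s.fam.prof n) (s.sol n).bf (s.sol n).bg (G_ne hn.1 ⟨h₁.le, h₄⟩)]
      rfl
    · filter_upwards [hs η hη, hκ η hη, self_mem_nhdsWithin] with r ⟨h₁, h₂⟩ h₃ h₄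
      have h₅ : R < r := h₄
      filter_upwards [h₂, h₃, ev_norm_le s.t₁, ev_norm_le s.t₂,
        (tendsto_inv_m s.fam.m_tendsto).eventually (ge_mem_nhds hη)]
        with n ⟨hI, hN, hA, hL⟩ h₆ h₇ h₈ h₉
      obtain ⟨cF, cG⟩ := cont_src (s.fam.prof n) l (c₀ n) (c₁ n) (c₂ n)
      have k := hh _ _ _ _ _ _ _ _ _ _ _ _ r η (s.fam.prof n) hI (s.sol n) cF cG (by linarith) h₁
        s.lK (s.bd n) h₆
      have p₁ := norm_nonneg d₁
      have p₂ := norm_nonneg d₂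
      have hC := C₀_nonneg hI
      have b₁ : Real.sqrt (La (G n) (f n) (g n) r) ≤ η := Real.sqrt_le_iff.2 ⟨hη.le, hL⟩
      have b₂ : η * Real.sqrt (N2 l (f n) (g n) r) ≤ η * Real.sqrt N :=
        mul_le_mul_of_nonneg_left (Real.sqrt_le_sqrt hN) hη.le
      have b₃ := (Real.le_norm_self _).trans (intervalIntegral.norm_integral_le_of_norm_le_const
        (a := 0) (b := r) (C := (‖d₁‖ + ‖d₂‖ + 1) * (η + 2 * (η * C₀)))
        (f := fun x => ‖et (G n) (fun r => -I * symF (m n) (β n) (G n) l (c₀ n) (c₁ n) (c₂ n) r)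
          (fun r => I * symG (m n) (β n) (G n) l (c₀ n) (c₁ n) (c₂ n) r) x‖) fun x hx => by
          rw [uIoc_of_le (by linarith)] at hx
          rw [norm_norm]
          refine (et_src_le (N := ‖d₁‖ + ‖d₂‖ + 1) hI (by linarith) (by linarith)
            ⟨hx.1.le, hx.2.trans h₁⟩ (h₆ x ⟨hx.1.le, hx.2⟩)).trans ?_
          gcongr)
      rw [sub_zero, abs_of_nonneg (by linarith)] at b₃
      have b₄ : (‖d₁‖ + ‖d₂‖ + 1) * (η + 2 * (η * C₀)) * r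
          ≤ (‖d₁‖ + ‖d₂‖ + 1) * (η + 2 * (η * C₀)) * 4 := by gcongr
      refine k.trans ?_
      rw [mul_left_comm]
      refine mul_le_mul_of_nonneg_left ?_ hCh.le
      linarith

end Vale.Agent.P139Z.BF
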