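import Vale.Agent.P139Z.BF.Red
import Vale.Agent.P139Z.Good

/-! Block BF, auxiliary file: convergence in the exterior region. -/

open Set Filter Topology MeasureTheory Complex
open scoped NNReal ENNReal ComplexConjugate ContDiff

namespace Vale.Agent.P139Z.BF

theorem diff_bound {A Ai : ℂ} {B : ℕ} {F Fi : ℝ → ℂ} {ρ η M : ℝ} {v₁ v₂ y yi s si : ℂ}
    (hF : ContDiffAt ℝ 2 F ρ) (hFi : ContDiffAt ℝ 2 Fi ρ)
    (e : Mop A B F ρ = v₁ * F ρ + v₂ * conj y + s) (ei : Mop Ai B Fi ρ = si) (hη : η ≤ 1)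
    (h₁ : ‖v₁‖ ≤ η) (h₂ : ‖v₂‖ ≤ η) (h₃ : ‖s - si‖ ≤ η) (h₄ : ‖Ai - A‖ ≤ η) (h₅ : ‖Fi ρ‖ ≤ M)
    (h₆ : ‖yi‖ ≤ M) :
    ‖Mop Ai B (fun x => F x - Fi x) ρ‖ ≤ 2 * ‖F ρ - Fi ρ‖ + ‖y - yi‖ + η * (3 * M + 1) := by
  rw [Mop_sub _ _ hF hFi, Mop_shift Ai A, e, ei]
  have a₁ : ‖F ρ‖ ≤ ‖F ρ - Fi ρ‖ + M := by
    have := norm_add_le (F ρ - Fi ρ) (Fi ρ)
    rw [sub_add_cancel] at this
    linarith
  have a₂ : ‖y‖ ≤ ‖y - yi‖ + M := by
    have := norm_add_le (y - yi) yi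
    rw [sub_add_cancel] at this
    linarith
  have h0 : 0 ≤ η := (norm_nonneg _).trans h₁
  have b : ‖v₁ * F ρ + v₂ * conj y + s + I * (Ai - A) * F ρ - si‖
      ≤ ‖v₁‖ * ‖F ρ‖ + ‖v₂‖ * ‖y‖ + ‖s - si‖ + ‖Ai - A‖ * ‖F ρ‖ := by
    have e' : v₁ * F ρ + v₂ * conj y + s + I * (Ai - A) * F ρ - si
        = v₁ * F ρ + v₂ * conj y + (s - si) + I * (Ai - A) * F ρ := by ring
    rw [e']
    refine (norm_add_le _ _).trans (add_le_add ((norm_add_le _ _).trans (add_le_add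
      ((norm_add_le _ _).trans (add_le_add ?_ ?_)) le_rfl)) ?_) <;> simp
  have c₁ : ‖v₁‖ * ‖F ρ‖ ≤ η * (‖F ρ - Fi ρ‖ + M) := mul_le_mul h₁ a₁ (norm_nonneg _) h0
  have c₂ : ‖v₂‖ * ‖y‖ ≤ η * (‖y - yi‖ + M) := mul_le_mul h₂ a₂ (norm_nonneg _) h0
  have c₃ : ‖Ai - A‖ * ‖F ρ‖ ≤ η * (‖F ρ - Fi ρ‖ + M) := mul_le_mul h₄ a₁ (norm_nonneg _) h0
  have d₁ : η * ‖F ρ - Fi ρ‖ ≤ ‖F ρ - Fi ρ‖ := mul_le_of_le_one_left (norm_nonneg _) hη
  have d₂ : η * ‖y - yi‖ ≤ ‖y - yi‖ := mul_le_of_le_one_left (norm_nonneg _) hη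
  nlinarith

theorem norm_sub_tendsto {u : ℕ → ℂ} {y : ℂ} (h : Tendsto u atTop (𝓝 y)) :
    Tendsto (fun n => ‖u n - y‖) atTop (𝓝 0) := tendsto_iff_norm_sub_tendsto_zero.1 h

/-- Convergence of the values and first derivatives propagates along a compact interval. -/
theorem conv_C1 {a b ρ₀ ρ : ℝ} (ha : 0 < a) (hρ₀ : ρ₀ ∈ Icc a b) (hρ : ρ ∈ Icc a b)
    {A A' : ℕ → ℂ} {Ai Ai' : ℂ} {B : ℕ} {V₁ V₂ F H SF SH : ℕ → ℝ → ℂ} {Fi Hi SFi SHi : ℝ → ℂ}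
    (hA : Tendsto A atTop (𝓝 Ai)) (hA' : Tendsto A' atTop (𝓝 Ai'))
    (sol : ∀ n, RedSol (V₁ n) (V₂ n) (A n) (A' n) B (F n) (H n) (SF n) (SH n))
    (hFi : ContDiffOn ℝ ∞ Fi (Ioi 0)) (hHi : ContDiffOn ℝ ∞ Hi (Ioi 0))
    (eF : ∀ x : ℝ, 0 < x → Mop Ai B Fi x = SFi x) (eH : ∀ x : ℝ, 0 < x → Mop Ai' B Hi x = SHi x)
    (small : ∀ η : ℝ, 0 < η → ∀ᶠ n in atTop, ∀ x ∈ Icc a b, ‖V₁ n x‖ ≤ η ∧ ‖V₂ n x‖ ≤ η ∧
      ‖SF n x - SFi x‖ ≤ η ∧ ‖SH n x - SHi x‖ ≤ η)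
    (f0 : Tendsto (fun n => F n ρ₀) atTop (𝓝 (Fi ρ₀)))
    (f1 : Tendsto (fun n => deriv (F n) ρ₀) atTop (𝓝 (deriv Fi ρ₀)))
    (h0 : Tendsto (fun n => H n ρ₀) atTop (𝓝 (Hi ρ₀)))
    (h1 : Tendsto (fun n => deriv (H n) ρ₀) atTop (𝓝 (deriv Hi ρ₀))) :
    Tendsto (fun n => F n ρ) atTop (𝓝 (Fi ρ)) ∧
      Tendsto (fun n => deriv (F n) ρ) atTop (𝓝 (deriv Fi ρ)) ∧
      Tendsto (fun n => H n ρ) atTop (𝓝 (Hi ρ)) ∧
      Tendsto (fun n => deriv (H n) ρ) atTop (𝓝 (deriv Hi ρ)) := by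
  have hsub : Icc a b ⊆ Ioi 0 := fun x hx => ha.trans_le hx.1
  have hab : a ≤ b := hρ.1.trans hρ.2
  obtain ⟨M₁, hM₁⟩ := isCompact_Icc.exists_bound_of_continuousOn (hFi.continuousOn.mono hsub)
  obtain ⟨M₂, hM₂⟩ := isCompact_Icc.exists_bound_of_continuousOn (hHi.continuousOn.mono hsub)
  set M := max M₁ M₂ with hM
  have hM0 : 0 ≤ M := ((norm_nonneg _).trans (hM₁ ρ hρ)).trans (le_max_left _ _)
  obtain ⟨C, hC, hs⟩ := stab2 ha b (‖Ai‖ + ‖Ai'‖ + B + 3)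
  have dF : ∀ n, ∀ x ∈ Icc a b, deriv (fun x => F n x - Fi x) x = deriv (F n) x - deriv Fi x :=
    fun n x hx => deriv_fun_sub
      ((at_le (sol n).smoothF (hsub hx) (i := 1) (by norm_num)).differentiableAt (by simp))
      ((at_nat hFi (hsub hx) 1).differentiableAt (by simp))
  have dH : ∀ n, ∀ x ∈ Icc a b, deriv (fun x => H n x - Hi x) x = deriv (H n) x - deriv Hi x :=
    fun n x hx => deriv_fun_sub
      ((at_le (sol n).smoothH (hsub hx) (i := 1) (by norm_num)).differentiableAt (by simp))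
      ((at_nat hHi (hsub hx) 1).differentiableAt (by simp))
  have key : Tendsto (fun n => ‖F n ρ - Fi ρ‖ + ‖deriv (F n) ρ - deriv Fi ρ‖ + ‖H n ρ - Hi ρ‖
      + ‖deriv (H n) ρ - deriv Hi ρ‖) atTop (𝓝 0) := by
    rw [NormedAddGroup.tendsto_nhds_zero]
    intro ε hε
    have t1 : Tendsto (fun η : ℝ => C * (η + (b - a) * (η * (6 * M + 2)))) (𝓝[>] 0) (𝓝 0) := by
      have : Continuous fun η : ℝ => C * (η + (b - a) * (η * (6 * M + 2))) := by fun_prop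
      have := (this.tendsto 0).mono_left (nhdsWithin_le_nhds (s := Ioi 0))
      simpa using this
    obtain ⟨η, ⟨hη₁, hη₂⟩, hη₃⟩ := ((t1.eventually (gt_mem_nhds hε)).and
      (Ioc_mem_nhdsGT (zero_lt_one' ℝ))).exists |> fun ⟨η, h₁, h₂⟩ =>
      (⟨η, h₂, h₁⟩ : ∃ η ∈ Ioc (0 : ℝ) 1, C * (η + (b - a) * (η * (6 * M + 2))) < ε)
    have t2 := (((norm_sub_tendsto f0).add (norm_sub_tendsto f1)).add (norm_sub_tendsto h0)).add
      (norm_sub_tendsto h1)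
    simp only [add_zero] at t2
    filter_upwards [small η hη₁, t2.eventually (ge_mem_nhds hη₁),
      (norm_sub_tendsto hA).eventually (ge_mem_nhds hη₁),
      (norm_sub_tendsto hA').eventually (ge_mem_nhds hη₁)] with n e₁ e₂ e₃ e₄
    have c₁ : ∀ x ∈ Icc a b, ContDiffAt ℝ 2 (F n) x := fun x hx =>
      at_le (sol n).smoothF (hsub hx) (i := 2) (by norm_num)
    have c₂ : ∀ x ∈ Icc a b, ContDiffAt ℝ 2 (H n) x := fun x hx =>
      at_le (sol n).smoothH (hsub hx) (i := 2) (by norm_num)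
    have c₃ : ∀ x ∈ Icc a b, ContDiffAt ℝ 2 Fi x := fun x hx => at_nat hFi (hsub hx) 2
    have c₄ : ∀ x ∈ Icc a b, ContDiffAt ℝ 2 Hi x := fun x hx => at_nat hHi (hsub hx) 2
    have p₁ := norm_nonneg Ai
    have p₂ := norm_nonneg Ai'
    have p₃ : (0 : ℝ) ≤ B := Nat.cast_nonneg B
    have h := hs Ai Ai' B B (fun x => F n x - Fi x) (fun x => H n x - Hi x)
      (fun _ => η * (6 * M + 2)) (by linarith) (by linarith) (by linarith) (by linarith)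
      (fun x hx => (c₁ x hx).sub (c₃ x hx)) (fun x hx => (c₂ x hx).sub (c₄ x hx))
      continuousOn_const (fun _ _ => by positivity) (fun x hx => by
        obtain ⟨g₁, g₂, g₃, g₄⟩ := e₁ x hx
        have m₁ : ‖Fi x‖ ≤ M := (hM₁ x hx).trans (le_max_left _ _)
        have m₂ : ‖Hi x‖ ≤ M := (hM₂ x hx).trans (le_max_right _ _)
        have k₁ := diff_bound (c₁ x hx) (c₃ x hx) ((sol n).eqF x (hsub hx)) (eF x (hsub hx)) hη₂
          g₁ g₂ g₃ (by rwa [norm_sub_rev]) m₁ m₂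
        have k₂ := diff_bound (c₂ x hx) (c₄ x hx) ((sol n).eqH x (hsub hx)) (eH x (hsub hx)) hη₂
          g₁ g₂ g₄ (by rwa [norm_sub_rev]) m₂ m₁
        have q₁ := norm_nonneg (F n x - Fi x)
        have q₂ := norm_nonneg (H n x - Hi x)
        have q₃ := mul_nonneg (add_nonneg (add_nonneg p₁ p₂) p₃) (add_nonneg q₁ q₂)
        nlinarith) ρ₀ hρ₀ ρ hρ
    rw [dF n ρ hρ, dH n ρ hρ, dF n ρ₀ hρ₀, dH n ρ₀ hρ₀, intervalIntegral.integral_const,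
      smul_eq_mul] at h
    rw [Real.norm_of_nonneg (by positivity)]
    refine (h.trans (mul_le_mul_of_nonneg_left ?_ hC.le)).trans_lt hη₃
    linarith
  refine ⟨?_, ?_, ?_, ?_⟩ <;>
  · refine tendsto_iff_norm_sub_tendsto_zero.2 (squeeze_zero (fun _ => norm_nonneg _)
      (fun n => ?_) key)
    linarith [norm_nonneg (F n ρ - Fi ρ), norm_nonneg (deriv (F n) ρ - deriv Fi ρ),
      norm_nonneg (H n ρ - Hi ρ), norm_nonneg (deriv (H n) ρ - deriv Hi ρ)]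

theorem unif_gen {Λ c₀ c₁ c₂ : ℕ → ℂ} {Λi d₀ d₁ d₂ : ℂ} {G : ℕ → ℝ → ℂ} {U : ℝ → ℂ} {a b : ℝ}
    (hΛ : Tendsto Λ atTop (𝓝 Λi)) (h₀ : Tendsto c₀ atTop (𝓝 d₀)) (h₁ : Tendsto c₁ atTop (𝓝 d₁))
    (h₂ : Tendsto c₂ atTop (𝓝 d₂)) (hG : TendstoUniformlyOn G U atTop (Icc a b))
    (hG' : TendstoUniformlyOn (fun n => deriv (G n)) (deriv U) atTop (Icc a b))
    (hU : ContinuousOn U (Icc a b)) (hU' : ContinuousOn (deriv U) (Icc a b)) (l : ℕ) :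
    TendstoUniformlyOn (fun n => gen (Λ n) (G n) l (c₀ n) (c₁ n) (c₂ n)) (gen Λi U l d₀ d₁ d₂)
      atTop (Icc a b) := by
  rw [← tendstoLocallyUniformlyOn_iff_tendstoUniformlyOn_of_compact isCompact_Icc] at hG hG' ⊢
  have k : ∀ {u : ℕ → ℂ} {y : ℂ}, Tendsto u atTop (𝓝 y) → TendstoLocallyUniformlyOn
      (fun n (_ : ℝ) => u n) (fun _ => y) atTop (Icc a b) := fun h =>
    (h.tendstoUniformlyOn_const _).tendstoLocallyUniformlyOn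
  have kx : TendstoLocallyUniformlyOn (fun (_ : ℕ) (x : ℝ) => (x : ℂ)) (fun x => (x : ℂ)) atTop
      (Icc a b) := by
    refine TendstoUniformlyOn.tendstoLocallyUniformlyOn fun u hu => ?_
    exact Eventually.of_forall fun _ _ _ => refl_mem_uniformity hu
  have cx : ContinuousOn (fun x : ℝ => (x : ℂ)) (Icc a b) := continuous_ofReal.continuousOn
  unfold gen
  split_ifs
  · exact ((k h₀).mul₀ ((k tendsto_const_nhds).mul₀ hG continuousOn_const hU) continuousOn_const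
      (continuousOn_const.mul hU)).add ((k h₁).mul₀ (((k hΛ).mul₀ hG continuousOn_const hU).add
      (kx.mul₀ hG' cx hU')) continuousOn_const ((continuousOn_const.mul hU).add (cx.mul hU')))
  · exact (k h₂).mul₀ ((k tendsto_const_nhds).mul₀ hG' continuousOn_const hU') continuousOn_const
      (continuousOn_const.mul hU')
  · exact k tendsto_const_nhds

theorem tendsto_gen {Λ c₀ c₁ c₂ : ℕ → ℂ} {Λi d₀ d₁ d₂ : ℂ} {G : ℕ → ℝ → ℂ} {U : ℝ → ℂ} {ρ : ℝ}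
    (hρ : 0 < ρ) (hΛ : Tendsto Λ atTop (𝓝 Λi)) (h₀ : Tendsto c₀ atTop (𝓝 d₀))
    (h₁ : Tendsto c₁ atTop (𝓝 d₁)) (h₂ : Tendsto c₂ atTop (𝓝 d₂))
    (sG : ∀ n, ContDiffOn ℝ ∞ (G n) (Ioi 0)) (sU : ContDiffOn ℝ ∞ U (Ioi 0)) {i : ℕ}
    (hG : Tendsto (fun n => iteratedDeriv i (G n) ρ) atTop (𝓝 (iteratedDeriv i U ρ)))
    (hG' : Tendsto (fun n => iteratedDeriv (i + 1) (G n) ρ) atTop (𝓝 (iteratedDeriv (i + 1) U ρ)))
    (l : ℕ) : Tendsto (fun n => iteratedDeriv i (gen (Λ n) (G n) l (c₀ n) (c₁ n) (c₂ n)) ρ) atTop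
      (𝓝 (iteratedDeriv i (gen Λi U l d₀ d₁ d₂) ρ)) := by
  simp only [fun n => iter_gen (Λ n) (sG n) l (c₀ n) (c₁ n) (c₂ n) i hρ,
    iter_gen Λi sU l d₀ d₁ d₂ i hρ]
  split_ifs
  · exact (h₀.mul (hG.const_mul _)).add (h₁.mul ((hΛ.mul hG).add
      ((hG'.const_mul _).add (hG.const_mul _))))
  · exact h₂.mul (hG'.const_mul _)
  · exact tendsto_const_nhds

variable {m : ℕ → ℕ} {β : ℕ → ℝ} {G : ℕ → ℝ → ℂ} {βi Z : ℝ} {U : ℝ → ℂ}

theorem pot_small (h : IsFamily m β G βi Z U) {a : ℝ} (ha : 4 * Z < a) {η : ℝ} (hη : 0 < η) :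
    ∀ᶠ n in atTop, ∀ i ≤ 10, ∀ ρ : ℝ, a ≤ ρ →
      ‖iteratedDeriv i (fun x => pot1 (m n) (G n x)) ρ‖ ≤ η ∧
        ‖iteratedDeriv i (fun x => pot2 (m n) (G n x)) ρ‖ ≤ η := by
  filter_upwards [h.goodExt hη (sub_pos.2 ha)] with n hn i hi ρ hρ
  have h1 : 1 ≤ ρ := by linarith [h.lim.inZ.1]
  have h2 : η * ρ ^ (-(1 + (i : ℝ))) ≤ η := mul_le_of_le_one_right hη.le
    (Real.rpow_le_one_of_one_le_of_nonpos h1 (neg_nonpos.2 (by positivity)))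
  exact ⟨(hn.v1 i hi ρ (by linarith)).trans h2, (hn.v2 i hi ρ (by linarith)).trans h2⟩

theorem pot_tendsto (h : IsFamily m β G βi Z U) {ρ : ℝ} (hρ : 4 * Z < ρ) {i : ℕ} (hi : i ≤ 10) :
    Tendsto (fun n => iteratedDeriv i (fun x => pot1 (m n) (G n x)) ρ) atTop (𝓝 0) ∧
      Tendsto (fun n => iteratedDeriv i (fun x => pot2 (m n) (G n x)) ρ) atTop (𝓝 0) := by
  constructor <;>
  · rw [NormedAddGroup.tendsto_nhds_zero]
    intro ε hε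
    filter_upwards [pot_small h hρ (half_pos hε)] with n hn
    linarith [(hn i hi ρ le_rfl).1, (hn i hi ρ le_rfl).2]

theorem prof_on {m : ℕ} {β : ℝ} {G : ℝ → ℂ} (h : IsProfile m β G) : ContDiffOn ℝ ∞ G (Ioi 0) :=
  h.smooth.contDiffOn

theorem G_tendsto (h : IsFamily m β G βi Z U) (hm : ∀ n, 1 ≤ m n) {ρ : ℝ} (hρ : 4 * Z < ρ) {k : ℕ}
    (hk : k ≤ 8) : Tendsto (fun n => iteratedDeriv k (G n) ρ) atTop (𝓝 (iteratedDeriv k U ρ)) := by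
  have hρ0 : 0 < ρ := by linarith [h.lim.inZ.1]
  have hne : ∀ n, ((m n : ℂ) + 1) ≠ 0 := fun n => by exact_mod_cast Nat.succ_ne_zero (m n)
  have f0 := (h.conv_out ρ).tendsto_at ⟨hρ.le, le_rfl⟩
  have f1 := (h.conv_out' ρ).tendsto_at ⟨hρ.le, le_rfl⟩
  have eq : ∀ n, ∀ x : ℝ, 0 < x → Mop (Lam (m n) (β n)) 6 (G n) x
      = ((m n : ℂ) + 1)⁻¹ * pot1 (m n) (G n x) * G n x + 0 * conj (G n x) + 0 := by
    intro n x hx
    have := (h.prof n).ode x hx.le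
    unfold Mop pot1
    rw [← mul_assoc ((m n : ℂ) + 1)⁻¹, inv_mul_cancel₀ (hne n)]
    push_cast
    linear_combination this
  have s30 : ∀ n, ContDiffOn ℝ 30 (G n) (Ioi 0) := fun n x hx =>
    (at_nat (prof_on (h.prof n)) hx 30).contDiffWithinAt
  refine (tendsto_levels (V₁ := fun n x => ((m n : ℂ) + 1)⁻¹ * pot1 (m n) (G n x))
    (V₂ := fun _ _ => 0) (SF := fun _ _ => 0) (SH := fun _ _ => 0) (SFi := fun _ => 0)
    (SHi := fun _ => 0) hρ0 (tendsto_Lam h) (tendsto_Lam h)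
    (fun n => ⟨s30 n, s30 n, eq n, eq n⟩)
    (fun n => contDiffOn_const.mul (symb_pot (hm n) (h.prof n)).1.smooth)
    (fun _ => contDiffOn_const) (fun _ => contDiffOn_const) (fun _ => contDiffOn_const)
    h.lim.symb.smooth h.lim.symb.smooth h.lim.ode h.lim.ode (fun j hj => ?_) (fun j _ => by simp)
    (fun _ _ => tendsto_const_nhds) (fun _ _ => tendsto_const_nhds) f0 f1 f0 f1 k hk).1
  have t := (pot_tendsto h hρ (i := j) (by omega)).1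
  rw [tendsto_zero_iff_norm_tendsto_zero] at t ⊢
  refine squeeze_zero (fun _ => norm_nonneg _) (fun n => ?_) t
  rw [iteratedDeriv_const_mul_field, norm_mul]
  refine mul_le_of_le_one_left (norm_nonneg _) ?_
  rw [norm_inv]
  refine inv_le_one_of_one_le₀ ?_
  have : ((m n : ℂ) + 1) = ((m n + 1 : ℕ) : ℂ) := by push_cast; rfl
  rw [this, Complex.norm_natCast]
  exact_mod_cast Nat.le_add_left 1 (m n)

end Vale.Agent.P139Z.BF
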