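import Vale.Agent.P139Z.Modes

/-! Block BF, auxiliary file: calculus of the reduced modes, convergence of higher derivatives. -/

open Set Filter Topology MeasureTheory Complex
open scoped NNReal ENNReal ComplexConjugate ContDiff

namespace Vale.Agent.P139Z.BF

theorem deriv_cj (F : ℝ → ℂ) (ρ : ℝ) : deriv (fun x => conj (F x)) ρ = conj (deriv F ρ) :=
  deriv.star

theorem iter_cj (i : ℕ) (F : ℝ → ℂ) :
    iteratedDeriv i (fun x => conj (F x)) = fun ρ => conj (iteratedDeriv i F ρ) := by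
  induction i with
  | zero => simp
  | succ i ih =>
    funext ρ
    rw [iteratedDeriv_succ, ih, deriv_cj, iteratedDeriv_succ]

theorem contDiffAt_cj {n : WithTop ℕ∞} {F : ℝ → ℂ} {ρ : ℝ} (h : ContDiffAt ℝ n F ρ) :
    ContDiffAt ℝ n (fun x => conj (F x)) ρ :=
  Complex.conjCLE.contDiff.contDiffAt.comp ρ h

theorem at_of_on {n : WithTop ℕ∞} {F : ℝ → ℂ} (h : ContDiffOn ℝ n F (Ioi 0)) {ρ : ℝ} (hρ : 0 < ρ) :
    ContDiffAt ℝ n F ρ := h.contDiffAt (Ioi_mem_nhds hρ)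

theorem at_nat {F : ℝ → ℂ} (h : ContDiffOn ℝ ∞ F (Ioi 0)) {ρ : ℝ} (hρ : 0 < ρ) (i : ℕ) :
    ContDiffAt ℝ i F ρ := (at_of_on h hρ).of_le (by exact_mod_cast le_top)

theorem at_le {F : ℝ → ℂ} (h : ContDiffOn ℝ 30 F (Ioi 0)) {ρ : ℝ} (hρ : 0 < ρ) {i : ℕ}
    (hi : i ≤ 30) : ContDiffAt ℝ i F ρ := (at_of_on h hρ).of_le (by exact_mod_cast hi)

theorem on_deriv {F : ℝ → ℂ} (h : ContDiffOn ℝ ∞ F (Ioi 0)) : ContDiffOn ℝ ∞ (deriv F) (Ioi 0) :=
  h.deriv_of_isOpen isOpen_Ioi (by simp)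

theorem on_iter {F : ℝ → ℂ} (h : ContDiffOn ℝ ∞ F (Ioi 0)) (k : ℕ) :
    ContDiffOn ℝ ∞ (iteratedDeriv k F) (Ioi 0) := by
  induction k with
  | zero => simpa using h
  | succ k ih => rw [iteratedDeriv_succ]; exact on_deriv ih

theorem contDiff_coe (n : WithTop ℕ∞) : ContDiff ℝ n fun x : ℝ => (x : ℂ) :=
  Complex.ofRealCLM.contDiff

/-- The reduced modes for a profile `G` and exponent `Λ`. -/
noncomputable def gen (Λ : ℂ) (G : ℝ → ℂ) (l : ℕ) (a₀ a₁ a₂ : ℂ) (ρ : ℝ) : ℂ :=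
  if l = 0 then a₀ * (I * G ρ) + a₁ * (Λ * G ρ + ρ * deriv G ρ)
  else if l = 1 then a₂ * (2 * deriv G ρ) else 0

theorem limF_eq (β : ℝ) (U : ℝ → ℂ) (l : ℕ) (a₀ a₁ a₂ : ℂ) :
    limF β U l a₀ a₁ a₂ = gen (-I * β) U l a₀ a₁ a₂ := rfl

theorem contDiffOn_gen (Λ : ℂ) {G : ℝ → ℂ} (h : ContDiffOn ℝ ∞ G (Ioi 0)) (l : ℕ) (a₀ a₁ a₂ : ℂ) :
    ContDiffOn ℝ ∞ (gen Λ G l a₀ a₁ a₂) (Ioi 0) := by
  have h' := on_deriv h
  unfold gen
  split_ifs
  · exact (contDiffOn_const.mul (contDiffOn_const.mul h)).add (contDiffOn_const.mul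
      ((contDiffOn_const.mul h).add ((contDiff_coe _).contDiffOn.mul h')))
  · exact contDiffOn_const.mul (contDiffOn_const.mul h')
  · exact contDiffOn_const

theorem iter_id_mul {F : ℝ → ℂ} (h : ContDiffOn ℝ ∞ F (Ioi 0)) (i : ℕ) :
    ∀ ρ : ℝ, 0 < ρ → iteratedDeriv i (fun x : ℝ => (x : ℂ) * deriv F x) ρ
      = ρ * iteratedDeriv (i + 1) F ρ + i * iteratedDeriv i F ρ := by
  induction i with
  | zero => intro ρ _; simp
  | succ i ih =>
    intro ρ hρ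
    have e : iteratedDeriv i (fun x : ℝ => (x : ℂ) * deriv F x)
        =ᶠ[𝓝 ρ] fun x : ℝ => x * iteratedDeriv (i + 1) F x + i * iteratedDeriv i F x := by
      filter_upwards [Ioi_mem_nhds hρ] with x hx using ih x hx
    have d : ∀ k : ℕ, HasDerivAt (iteratedDeriv k F) (iteratedDeriv (k + 1) F ρ) ρ := by
      intro k
      rw [iteratedDeriv_succ]
      exact ((at_nat (on_iter h k) hρ 1).differentiableAt (by simp)).hasDerivAt
    rw [iteratedDeriv_succ, e.deriv_eq]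
    have h1 := ((Complex.ofRealCLM.hasDerivAt (x := ρ)).mul (d (i + 1))).add
      ((d i).const_mul (i : ℂ))
    refine h1.deriv.trans ?_
    simp only [ofRealCLM_apply, ofReal_one]
    push_cast
    ring

theorem iter_gen (Λ : ℂ) {G : ℝ → ℂ} (h : ContDiffOn ℝ ∞ G (Ioi 0)) (l : ℕ) (a₀ a₁ a₂ : ℂ) (i : ℕ)
    {ρ : ℝ} (hρ : 0 < ρ) : iteratedDeriv i (gen Λ G l a₀ a₁ a₂) ρ =
      if l = 0 then a₀ * (I * iteratedDeriv i G ρ) + a₁ * (Λ * iteratedDeriv i G ρ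
        + (ρ * iteratedDeriv (i + 1) G ρ + i * iteratedDeriv i G ρ))
      else if l = 1 then a₂ * (2 * iteratedDeriv (i + 1) G ρ) else 0 := by
  have h0 := at_nat h hρ i
  have h1 := at_nat (on_deriv h) hρ i
  have h2 : ContDiffAt ℝ i (fun x : ℝ => (x : ℂ) * deriv G x) ρ :=
    (contDiff_coe _).contDiffAt.mul h1
  unfold gen
  split_ifs
  · rw [iteratedDeriv_fun_add (contDiffAt_const.mul (contDiffAt_const.mul h0))
      (contDiffAt_const.mul ((contDiffAt_const.mul h0).add h2)),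
      iteratedDeriv_const_mul_field, iteratedDeriv_const_mul_field, iteratedDeriv_const_mul_field,
      iteratedDeriv_fun_add (contDiffAt_const.mul h0) h2, iteratedDeriv_const_mul_field,
      iter_id_mul h i ρ hρ]
  · rw [iteratedDeriv_const_mul_field, iteratedDeriv_const_mul_field, iteratedDeriv_succ']
  · simp

theorem Mop_shift (A A₀ : ℂ) (B : ℕ) (F : ℝ → ℂ) (ρ : ℝ) :
    Mop A B F ρ = Mop A₀ B F ρ + I * (A - A₀) * F ρ := by
  unfold Mop; ring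

/-- The equation of the modes of a free solution. -/
theorem Mop_gen {Λ : ℂ} {U : ℝ → ℂ} (h : ContDiffOn ℝ ∞ U (Ioi 0))
    (e : ∀ ρ : ℝ, 0 < ρ → Mop Λ 6 U ρ = 0) (l : ℕ) (lam a₀ a₁ a₂ : ℂ) {ρ : ℝ} (hρ : 0 < ρ) :
    Mop (l / 2 + lam + Λ) (6 + l) (gen Λ U l a₀ a₁ a₂) ρ
      = -I * gen Λ U l (-(lam * a₀)) (-((lam - 1) * a₁)) (-((lam - 1 / 2) * a₂)) ρ := by
  have ev : Mop Λ 6 U =ᶠ[𝓝 ρ] fun _ => 0 := by
    filter_upwards [Ioi_mem_nhds hρ] with x hx using e x hx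
  have hd : deriv (Mop Λ 6 U) ρ = 0 := by rw [ev.deriv_eq]; simp
  have h2 : ContDiffAt ℝ 2 U ρ := at_nat h hρ 2
  have h2' : ContDiffAt ℝ 2 (deriv U) ρ := at_nat (on_deriv h) hρ 2
  unfold gen
  split_ifs with h0 h1
  · subst h0
    have h3 := Mop_level Λ 6 (at_nat h hρ 3)
    rw [hd, e ρ hρ] at h3
    rw [Mop_add _ _ (contDiffAt_const.mul (contDiffAt_const.mul h2)) (contDiffAt_const.mul
      ((contDiffAt_const.mul h2).add ((contDiff_coe _).contDiffAt.mul h2'))), Mop_const_mul,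
      Mop_const_mul, Mop_const_mul, Mop_shift _ Λ _ U,
      Mop_shift _ (Λ + 1) _ (fun x : ℝ => Λ * U x + x * deriv U x), add_zero, e ρ hρ, h3]
    push_cast
    ring
  · subst h1
    have h3 := iteratedDeriv_Mop Λ 6 1 (at_nat h hρ (1 + 2))
    rw [iteratedDeriv_one, iteratedDeriv_one, hd] at h3
    rw [Mop_const_mul, Mop_const_mul, Mop_shift _ (Λ + (1 : ℕ)), ← h3]
    push_cast
    ring
  · simp [Mop]

/-- Independence of the limit modes. -/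
theorem gen_indep {β Z : ℝ} {U : ℝ → ℂ} (h : IsLimProf β Z U) {l : ℕ} {c₀ c₁ c₂ : ℂ}
    (hz : ∀ ρ : ℝ, 0 < ρ → gen (-I * β) U l c₀ c₁ c₂ ρ = 0) :
    (l = 0 → c₀ = 0 ∧ c₁ = 0) ∧ (l = 1 → c₂ = 0) := by
  have hZ : 0 < 4 * Z := by linarith [h.inZ.1]
  have hβ : (β : ℂ) ≠ 0 := by
    have : β ≠ 0 := by linarith [h.inB.1] |> fun h : 0 < β => h.ne'
    exact_mod_cast this
  have ev : gen (-I * β) U l c₀ c₁ c₂ =ᶠ[𝓝 (4 * Z)] fun _ => 0 := by
    filter_upwards [Ioi_mem_nhds hZ] with x hx using hz x hx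
  have h1 := ev.iteratedDeriv_eq 1
  rw [iter_gen _ h.symb.smooth l c₀ c₁ c₂ 1 hZ, iteratedDeriv_one, h.der] at h1
  have h0 := hz _ hZ
  have h2 := h.ode _ hZ
  unfold Mop at h2
  rw [h.val, h.der] at h2
  have h3 : ((4 * Z : ℝ) : ℂ) * iteratedDeriv 2 U (4 * Z) ≠ 0 := by
    intro h4
    apply hβ
    linear_combination h2 - 4 * h4 + (β : ℂ) * I_mul_I
  unfold gen at h0
  rw [h.val, h.der] at h0
  constructor
  · intro hl
    simp only [hl, if_true] at h0 h1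
    have h4 : c₁ = 0 := by
      have : c₁ * (((4 * Z : ℝ) : ℂ) * iteratedDeriv 2 U (4 * Z)) = 0 := by
        simpa using h1
      exact (mul_eq_zero.1 this).resolve_right h3
    refine ⟨?_, h4⟩
    simpa [h4] using h0
  · intro hl
    simp only [hl, one_ne_zero, if_false, if_true] at h1
    have h4 : iteratedDeriv 2 U (4 * Z) ≠ 0 := fun h5 => h3 (by rw [h5, mul_zero])
    simpa [h4] using h1

/-! ### convergence of higher derivatives at a point -/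

theorem level_step {A : ℂ} {B i : ℕ} {F R : ℝ → ℂ} {ρ : ℝ} (hρ : 0 < ρ)
    (hF : ContDiffAt ℝ (i + 2 : ℕ) F ρ) (e : ∀ x : ℝ, 0 < x → Mop A B F x = R x) :
    iteratedDeriv (i + 2) F ρ = (iteratedDeriv i R ρ
      - (4 * ((B + i : ℕ) : ℂ) + I * ρ) * iteratedDeriv (i + 1) F ρ
      - I * (A + i) * iteratedDeriv i F ρ) / (4 * ρ) := by
  have ev : Mop A B F =ᶠ[𝓝 ρ] R := by
    filter_upwards [Ioi_mem_nhds hρ] with x hx using e x hx
  have h1 := iteratedDeriv_Mop A B i hF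
  rw [ev.iteratedDeriv_eq] at h1
  have h2 : iteratedDeriv 2 (iteratedDeriv i F) = iteratedDeriv (i + 2) F := by
    rw [iteratedDeriv_succ (n := i + 1), iteratedDeriv_succ (n := i), iteratedDeriv_succ,
      iteratedDeriv_one]
  unfold Mop at h1
  rw [h2, ← iteratedDeriv_succ] at h1
  have h3 : (ρ : ℂ) ≠ 0 := by exact_mod_cast hρ.ne'
  rw [h1]
  field_simp
  ring

theorem tendsto_step {A : ℕ → ℂ} {Ai : ℂ} {B i : ℕ} {F R : ℕ → ℝ → ℂ} {Fi Ri : ℝ → ℂ} {ρ : ℝ}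
    (hρ : 0 < ρ) (hA : Tendsto A atTop (𝓝 Ai)) (hF : ∀ n, ContDiffAt ℝ (i + 2 : ℕ) (F n) ρ)
    (hFi : ContDiffAt ℝ (i + 2 : ℕ) Fi ρ) (e : ∀ n, ∀ x : ℝ, 0 < x → Mop (A n) B (F n) x = R n x)
    (ei : ∀ x : ℝ, 0 < x → Mop Ai B Fi x = Ri x)
    (hR : Tendsto (fun n => iteratedDeriv i (R n) ρ) atTop (𝓝 (iteratedDeriv i Ri ρ)))
    (h0 : Tendsto (fun n => iteratedDeriv i (F n) ρ) atTop (𝓝 (iteratedDeriv i Fi ρ)))
    (h1 : Tendsto (fun n => iteratedDeriv (i + 1) (F n) ρ) atTop (𝓝 (iteratedDeriv (i + 1) Fi ρ))) :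
    Tendsto (fun n => iteratedDeriv (i + 2) (F n) ρ) atTop (𝓝 (iteratedDeriv (i + 2) Fi ρ)) := by
  rw [level_step hρ hFi ei]
  simp only [fun n => level_step hρ (hF n) (e n)]
  exact ((hR.sub (h1.const_mul _)).sub (((hA.add_const _).const_mul I).mul h0)).div_const _

theorem tendsto_small_mul {i : ℕ} {V F : ℕ → ℝ → ℂ} {y : ℕ → ℂ} {ρ : ℝ}
    (hV : ∀ n, ContDiffAt ℝ i (V n) ρ) (hF : ∀ n, ContDiffAt ℝ i (F n) ρ)
    (h0 : ∀ k ≤ i, Tendsto (fun n => iteratedDeriv k (V n) ρ) atTop (𝓝 0))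
    (h1 : ∀ k ≤ i, Tendsto (fun n => iteratedDeriv k (F n) ρ) atTop (𝓝 (y k))) :
    Tendsto (fun n => iteratedDeriv i (fun x => V n x * F n x) ρ) atTop (𝓝 0) := by
  simp only [fun n => iteratedDeriv_fun_mul (hV n) (hF n)]
  have h := tendsto_finsetSum (Finset.range (i + 1)) fun k hk =>
    ((h0 k (Nat.lt_succ_iff.1 (Finset.mem_range.1 hk))).const_mul (i.choose k : ℂ)).mul
      (h1 (i - k) (Nat.sub_le i k))
  simpa using h

theorem tendsto_cj {u : ℕ → ℂ} {y : ℂ} (h : Tendsto u atTop (𝓝 y)) :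
    Tendsto (fun n => conj (u n)) atTop (𝓝 (conj y)) :=
  (Complex.continuous_conj.tendsto y).comp h

/-- Convergence of the first eight derivatives of solutions of the reduced system. -/
theorem tendsto_levels {A A' : ℕ → ℂ} {Ai Ai' : ℂ} {B : ℕ} {V₁ V₂ F H SF SH : ℕ → ℝ → ℂ}
    {Fi Hi SFi SHi : ℝ → ℂ} {ρ : ℝ} (hρ : 0 < ρ) (hA : Tendsto A atTop (𝓝 Ai))
    (hA' : Tendsto A' atTop (𝓝 Ai'))
    (sol : ∀ n, RedSol (V₁ n) (V₂ n) (A n) (A' n) B (F n) (H n) (SF n) (SH n))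
    (s₁ : ∀ n, ContDiffOn ℝ ∞ (V₁ n) (Ioi 0)) (s₂ : ∀ n, ContDiffOn ℝ ∞ (V₂ n) (Ioi 0))
    (s₃ : ∀ n, ContDiffOn ℝ ∞ (SF n) (Ioi 0)) (s₄ : ∀ n, ContDiffOn ℝ ∞ (SH n) (Ioi 0))
    (hFi : ContDiffOn ℝ ∞ Fi (Ioi 0)) (hHi : ContDiffOn ℝ ∞ Hi (Ioi 0))
    (eF : ∀ x : ℝ, 0 < x → Mop Ai B Fi x = SFi x) (eH : ∀ x : ℝ, 0 < x → Mop Ai' B Hi x = SHi x)
    (v₁ : ∀ k ≤ 6, Tendsto (fun n => iteratedDeriv k (V₁ n) ρ) atTop (𝓝 0))
    (v₂ : ∀ k ≤ 6, Tendsto (fun n => iteratedDeriv k (V₂ n) ρ) atTop (𝓝 0))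
    (cF : ∀ k ≤ 6, Tendsto (fun n => iteratedDeriv k (SF n) ρ) atTop (𝓝 (iteratedDeriv k SFi ρ)))
    (cH : ∀ k ≤ 6, Tendsto (fun n => iteratedDeriv k (SH n) ρ) atTop (𝓝 (iteratedDeriv k SHi ρ)))
    (f0 : Tendsto (fun n => F n ρ) atTop (𝓝 (Fi ρ)))
    (f1 : Tendsto (fun n => deriv (F n) ρ) atTop (𝓝 (deriv Fi ρ)))
    (h0 : Tendsto (fun n => H n ρ) atTop (𝓝 (Hi ρ)))
    (h1 : Tendsto (fun n => deriv (H n) ρ) atTop (𝓝 (deriv Hi ρ))) :
    ∀ k ≤ 8, Tendsto (fun n => iteratedDeriv k (F n) ρ) atTop (𝓝 (iteratedDeriv k Fi ρ)) ∧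
      Tendsto (fun n => iteratedDeriv k (H n) ρ) atTop (𝓝 (iteratedDeriv k Hi ρ)) := by
  intro k
  induction k using Nat.strong_induction_on with
  | _ k ih =>
  intro hk
  match k, ih, hk with
  | 0, _, _ => simpa using ⟨f0, h0⟩
  | 1, _, _ => simpa using ⟨f1, h1⟩
  | i + 2, ih, hk =>
    have hi : i ≤ 6 := by omega
    have aF : ∀ n, ContDiffAt ℝ i (F n) ρ := fun n => at_le (sol n).smoothF hρ (by omega)
    have aH : ∀ n, ContDiffAt ℝ i (H n) ρ := fun n => at_le (sol n).smoothH hρ (by omega)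
    have a₁ : ∀ n, ContDiffAt ℝ i (V₁ n) ρ := fun n => at_nat (s₁ n) hρ i
    have a₂ : ∀ n, ContDiffAt ℝ i (V₂ n) ρ := fun n => at_nat (s₂ n) hρ i
    have tF : ∀ j ≤ i, Tendsto (fun n => iteratedDeriv j (F n) ρ) atTop
        (𝓝 (iteratedDeriv j Fi ρ)) := fun j hj => (ih j (by omega) (by omega)).1
    have tH : ∀ j ≤ i, Tendsto (fun n => iteratedDeriv j (H n) ρ) atTop
        (𝓝 (iteratedDeriv j Hi ρ)) := fun j hj => (ih j (by omega) (by omega)).2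
    have tF' : ∀ j ≤ i, Tendsto (fun n => iteratedDeriv j (fun x => conj (F n x)) ρ) atTop
        (𝓝 (conj (iteratedDeriv j Fi ρ))) := fun j hj => by
      simp only [iter_cj]; exact tendsto_cj (tF j hj)
    have tH' : ∀ j ≤ i, Tendsto (fun n => iteratedDeriv j (fun x => conj (H n x)) ρ) atTop
        (𝓝 (conj (iteratedDeriv j Hi ρ))) := fun j hj => by
      simp only [iter_cj]; exact tendsto_cj (tH j hj)
    have w₁ := fun j (hj : j ≤ i) => v₁ j (hj.trans hi)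
    have w₂ := fun j (hj : j ≤ i) => v₂ j (hj.trans hi)
    constructor
    · refine tendsto_step hρ hA (fun n => at_le (sol n).smoothF hρ (by omega)) (at_nat hFi hρ _)
        (fun n => (sol n).eqF) eF ?_ (tF i le_rfl) (ih (i + 1) (by omega) (by omega)).1
      have := ((tendsto_small_mul a₁ aF w₁ tF).add
        (tendsto_small_mul a₂ (fun n => contDiffAt_cj (aH n)) w₂ tH')).add (cF i hi)
      rw [add_zero, zero_add] at this
      refine this.congr fun n => ?_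
      rw [iteratedDeriv_fun_add (((a₁ n).mul (aF n)).add ((a₂ n).mul (contDiffAt_cj (aH n))))
        (at_nat (s₃ n) hρ i),
        iteratedDeriv_fun_add ((a₁ n).mul (aF n)) ((a₂ n).mul (contDiffAt_cj (aH n)))]
    · refine tendsto_step hρ hA' (fun n => at_le (sol n).smoothH hρ (by omega)) (at_nat hHi hρ _)
        (fun n => (sol n).eqH) eH ?_ (tH i le_rfl) (ih (i + 1) (by omega) (by omega)).2
      have := ((tendsto_small_mul a₁ aH w₁ tH).add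
        (tendsto_small_mul a₂ (fun n => contDiffAt_cj (aF n)) w₂ tF')).add (cH i hi)
      rw [add_zero, zero_add] at this
      refine this.congr fun n => ?_
      rw [iteratedDeriv_fun_add (((a₁ n).mul (aH n)).add ((a₂ n).mul (contDiffAt_cj (aF n))))
        (at_nat (s₄ n) hρ i),
        iteratedDeriv_fun_add ((a₁ n).mul (aH n)) ((a₂ n).mul (contDiffAt_cj (aF n)))]

end Vale.Agent.P139Z.BF
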