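import Vale.Agent.P139Z.BF.Conv
import Vale.Agent.P139Z.ExtX

/-! Block BF, auxiliary file: the limit of a normalized sequence is weakly outgoing. -/

open Set Filter Topology MeasureTheory Complex
open scoped NNReal ENNReal ComplexConjugate ContDiff

namespace Vale.Agent.P139Z.BF

/-- A sequence of solutions along the family with convergent data. -/
structure Seq (m : ℕ → ℕ) (β : ℕ → ℝ) (G : ℕ → ℝ → ℂ) (βi Z : ℝ) (U : ℝ → ℂ) (l : ℕ) (K : ℝ)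
    (lam : ℕ → ℂ) (lami : ℂ) (f g : ℕ → ℝ → ℂ) (c₀ c₁ c₂ : ℕ → ℂ) (d₀ d₁ d₂ : ℂ)
    (F H : ℝ → ℂ) : Prop where
  fam : IsFamily m β G βi Z U
  one : ∀ n, 1 ≤ m n
  re : ∀ n, 0 ≤ (lam n).re
  bd : ∀ n, ‖lam n‖ ≤ K
  lK : (l : ℝ) ≤ K
  tl : Tendsto lam atTop (𝓝 lami)
  sol : ∀ n, Sol (m n) (β n) (G n) l (lam n) (f n) (g n) (c₀ n) (c₁ n) (c₂ n)
  t₀ : Tendsto c₀ atTop (𝓝 d₀)
  t₁ : Tendsto c₁ atTop (𝓝 d₁)
  t₂ : Tendsto c₂ atTop (𝓝 d₂)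
  sF : ContDiffOn ℝ ∞ F (Ioi 0)
  sH : ContDiffOn ℝ ∞ H (Ioi 0)
  eF : ∀ ρ : ℝ, 0 < ρ → Mop (l / 2 + lami - I * βi) (6 + l) F ρ = -I * limF βi U l d₀ d₁ d₂ ρ
  eH : ∀ ρ : ℝ, 0 < ρ → Mop (l / 2 + conj lami - I * βi) (6 + l) H ρ
    = -I * limF βi U l (conj d₀) (conj d₁) (conj d₂) ρ
  y₀ : Tendsto (fun n => red l (f n) 16) atTop (𝓝 (F 16))
  y₁ : Tendsto (fun n => deriv (red l (f n)) 16) atTop (𝓝 (deriv F 16))
  y₂ : Tendsto (fun n => conj (red l (g n) 16)) atTop (𝓝 (H 16))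
  y₃ : Tendsto (fun n => conj (deriv (red l (g n)) 16)) atTop (𝓝 (deriv H 16))

theorem fatou {u : ℕ → ℝ → ℝ} {v : ℝ → ℝ} {C : ℝ} (h0 : ∀ n, ∀ x ∈ Ioi (16 : ℝ), 0 ≤ u n x)
    (hi : ∀ᶠ n in atTop, IntegrableOn (u n) (Ioi 16) ∧ ∫ x in Ioi 16, u n x ≤ C)
    (ht : ∀ x ∈ Ioi (16 : ℝ), Tendsto (fun n => u n x) atTop (𝓝 (v x))) :
    IntegrableOn v (Ioi 16) := by
  obtain ⟨N, hN⟩ := eventually_atTop.1 hi
  refine integrable_of_tendsto (G := fun n => u (n + N)) ?_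
    (fun n => (hN _ (Nat.le_add_left _ _)).1.aestronglyMeasurable) ?_
  · filter_upwards [ae_restrict_mem measurableSet_Ioi] with x hx
    exact (ht x hx).comp (tendsto_add_atTop_nat N)
  · refine ne_top_of_le_ne_top (ENNReal.ofReal_ne_top (r := C))
      (liminf_le_of_frequently_le' (Frequently.of_forall fun n => ?_))
    obtain ⟨h1, h2⟩ := hN _ (Nat.le_add_left N n)
    rw [← ofReal_integral_norm_eq_lintegral_enorm h1]
    refine ENNReal.ofReal_le_ofReal (le_of_eq_of_le ?_ h2)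
    exact setIntegral_congr_fun measurableSet_Ioi fun x hx => Real.norm_of_nonneg (h0 _ x hx)

theorem gen_bound {Λ c₀ c₁ c₂ : ℂ} {G : ℝ → ℂ} (hG : ContDiffOn ℝ ∞ G (Ioi 0)) {L N C ρ : ℝ}
    (hρ : 1 ≤ ρ) (hΛ : ‖Λ‖ ≤ L) (h₀ : ‖c₀‖ ≤ N) (h₁ : ‖c₁‖ ≤ N) (h₂ : ‖c₂‖ ≤ N) (hC : 0 ≤ C)
    (hb : ∀ i ≤ 11, ‖iteratedDeriv i G ρ‖ ≤ C * ρ ^ (-(i : ℝ))) (l : ℕ) {i : ℕ} (hi : i ≤ 10) :
    ‖iteratedDeriv i (gen Λ G l c₀ c₁ c₂) ρ‖ ≤ N * C * (14 + L) * ρ ^ (-((l : ℝ) / 2 + i)) := by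
  have hρ0 : 0 < ρ := by linarith
  have hN : 0 ≤ N := (norm_nonneg _).trans h₀
  have hL : 0 ≤ L := (norm_nonneg _).trans hΛ
  have a₀ := hb i (by omega)
  have a₁ := hb (i + 1) (by omega)
  have e : ρ ^ (-((i + 1 : ℕ) : ℝ)) * ρ = ρ ^ (-(i : ℝ)) := by
    rw [← Real.rpow_add_one hρ0.ne']
    congr 1; push_cast; ring
  set X := ρ ^ (-(i : ℝ)) with hX
  have hX0 : 0 ≤ X := by positivity
  rw [iter_gen Λ hG l c₀ c₁ c₂ i hρ0]
  split_ifs with h0 h1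
  · subst h0
    have a₂ : ρ * ‖iteratedDeriv (i + 1) G ρ‖ ≤ C * X := by
      rw [← e]; nlinarith
    have a₃ : (i : ℝ) ≤ 10 := by exact_mod_cast hi
    have b₀ : ‖c₀ * (I * iteratedDeriv i G ρ)‖ ≤ N * (C * X) := by
      rw [norm_mul, norm_mul, norm_I, one_mul]
      exact mul_le_mul h₀ a₀ (norm_nonneg _) hN
    have b₁ : ‖Λ * iteratedDeriv i G ρ‖ ≤ L * (C * X) := by
      rw [norm_mul]; exact mul_le_mul hΛ a₀ (norm_nonneg _) hL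
    have b₂ : ‖(ρ : ℂ) * iteratedDeriv (i + 1) G ρ‖ ≤ C * X := by
      rwa [norm_mul, Complex.norm_real, Real.norm_of_nonneg hρ0.le]
    have b₃ : ‖(i : ℂ) * iteratedDeriv i G ρ‖ ≤ 10 * (C * X) := by
      rw [norm_mul, Complex.norm_natCast]
      exact mul_le_mul a₃ a₀ (norm_nonneg _) (by norm_num)
    have b₄ : ‖c₁ * (Λ * iteratedDeriv i G ρ + (ρ * iteratedDeriv (i + 1) G ρ
        + i * iteratedDeriv i G ρ))‖ ≤ N * (L * (C * X) + (C * X + 10 * (C * X))) := by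
      rw [norm_mul]
      exact mul_le_mul h₁ ((norm_add_le _ _).trans (add_le_add b₁ ((norm_add_le _ _).trans
        (add_le_add b₂ b₃)))) (norm_nonneg _) hN
    have e' : ρ ^ (-(((0 : ℕ) : ℝ) / 2 + i)) = X := by rw [hX]; simp
    rw [e']
    refine (norm_add_le _ _).trans ((add_le_add b₀ b₄).trans ?_)
    nlinarith [mul_nonneg hN (mul_nonneg hC hX0)]
  · subst h1
    have a₂ : ρ ^ (-((i + 1 : ℕ) : ℝ)) ≤ ρ ^ (-(((1 : ℕ) : ℝ) / 2 + i)) :=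
      Real.rpow_le_rpow_of_exponent_le hρ (by push_cast; linarith)
    set Y := ρ ^ (-(((1 : ℕ) : ℝ) / 2 + i)) with hY
    have hY0 : 0 ≤ Y := by positivity
    have a₃ : ‖iteratedDeriv (i + 1) G ρ‖ ≤ C * Y := a₁.trans (mul_le_mul_of_nonneg_left a₂ hC)
    rw [norm_mul, norm_mul, Complex.norm_two]
    refine (mul_le_mul h₂ (mul_le_mul_of_nonneg_left a₃ zero_le_two) (by positivity) hN).trans ?_
    nlinarith [mul_nonneg hN (mul_nonneg hC hY0), mul_nonneg hL (mul_nonneg hN (mul_nonneg hC hY0))]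
  · rw [norm_zero]; positivity

theorem ev_norm_le {u : ℕ → ℂ} {y : ℂ} (h : Tendsto u atTop (𝓝 y)) :
    ∀ᶠ n in atTop, ‖u n‖ ≤ ‖y‖ + 1 :=
  h.norm.eventually (ge_mem_nhds (lt_add_one _))

variable {m : ℕ → ℕ} {β : ℕ → ℝ} {G : ℕ → ℝ → ℂ} {βi Z : ℝ} {U : ℝ → ℂ} {l : ℕ} {K : ℝ}
  {lam : ℕ → ℂ} {lami : ℂ} {f g : ℕ → ℝ → ℂ} {c₀ c₁ c₂ : ℕ → ℂ} {d₀ d₁ d₂ : ℂ} {F H : ℝ → ℂ}

theorem G_symb (h : IsFamily m β G βi Z U) : ∃ C : ℝ, 0 ≤ C ∧ ∀ᶠ n in atTop, ∀ i ≤ 11,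
    ∀ ρ : ℝ, 16 ≤ ρ → ‖iteratedDeriv i (G n) ρ‖ ≤ C * ρ ^ (-(i : ℝ)) := by
  choose C hC using fun i => h.symb_near one_pos i
  refine ⟨∑ i ∈ Finset.range 12, |C i|, Finset.sum_nonneg fun _ _ => abs_nonneg _, ?_⟩
  filter_upwards [(Finset.range 12).eventually_all.2 fun i _ => hC i] with n hn i hi ρ hρ
  have hi' : i ∈ Finset.range 12 := Finset.mem_range.2 (by omega)
  refine (hn i hi' ρ (by linarith [h.lim.inZ.2])).trans (mul_le_mul ((le_abs_self _).trans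
    (Finset.single_le_sum (f := fun i => |C i|) (fun _ _ => abs_nonneg _) hi'))
    (Real.rpow_le_rpow_of_exponent_le (by linarith) ?_) (by positivity)
    (Finset.sum_nonneg fun _ _ => abs_nonneg _))
  have : 0 ≤ 1 / (2 * (m n : ℝ)) := by positivity
  linarith

theorem beta_le (h : IsFamily m β G βi Z U) : ∀ᶠ n in atTop, |β n| ≤ 1 := by
  refine h.β_tendsto.abs.eventually (ge_mem_nhds ?_)
  rw [abs_lt]
  constructor <;> linarith [h.lim.inB.1, h.lim.inB.2]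

namespace Seq

theorem tA (s : Seq m β G βi Z U l K lam lami f g c₀ c₁ c₂ d₀ d₁ d₂ F H) :
    Tendsto (fun n => l / 2 + lam n + Lam (m n) (β n)) atTop (𝓝 (l / 2 + lami - I * βi)) := by
  have := (s.tl.const_add ((l : ℂ) / 2)).add (tendsto_Lam s.fam)
  rwa [neg_mul, ← sub_eq_add_neg] at this

theorem tA' (s : Seq m β G βi Z U l K lam lami f g c₀ c₁ c₂ d₀ d₁ d₂ F H) :
    Tendsto (fun n => l / 2 + conj (lam n) + Lam (m n) (β n)) atTop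
      (𝓝 (l / 2 + conj lami - I * βi)) := by
  have := ((tendsto_cj s.tl).const_add ((l : ℂ) / 2)).add (tendsto_Lam s.fam)
  rwa [neg_mul, ← sub_eq_add_neg] at this

theorem c1 (s : Seq m β G βi Z U l K lam lami f g c₀ c₁ c₂ d₀ d₁ d₂ F H) {ρ : ℝ}
    (hρ : 4 * Z < ρ) : Tendsto (fun n => red l (f n) ρ) atTop (𝓝 (F ρ)) ∧
      Tendsto (fun n => deriv (red l (f n)) ρ) atTop (𝓝 (deriv F ρ)) ∧
      Tendsto (fun n => conj (red l (g n) ρ)) atTop (𝓝 (H ρ)) ∧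
      Tendsto (fun n => deriv (fun x => conj (red l (g n) x)) ρ) atTop (𝓝 (deriv H ρ)) := by
  have hZ := s.fam.lim.inZ
  have ha : 4 * Z < min ρ 16 := lt_min hρ (by linarith [hZ.2])
  have ha0 : 0 < min ρ 16 := by linarith [hZ.1]
  have hsub : Icc (min ρ 16) (max ρ 16) ⊆ Ioi 0 := fun x hx => ha0.trans_le hx.1
  have hsub' : Icc (min ρ 16) (max ρ 16) ⊆ Icc (4 * Z) (max ρ 16) :=
    Icc_subset_Icc ha.le le_rfl
  have sU := s.fam.lim.symb.smooth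
  have u := fun {c₀ c₁ c₂ : ℕ → ℂ} {d₀ d₁ d₂ : ℂ} (h₀ : Tendsto c₀ atTop (𝓝 d₀))
      (h₁ : Tendsto c₁ atTop (𝓝 d₁)) (h₂ : Tendsto c₂ atTop (𝓝 d₂)) =>
    Metric.tendstoUniformlyOn_iff.1 (unif_gen (tendsto_Lam s.fam) h₀ h₁ h₂
      ((s.fam.conv_out _).mono hsub') ((s.fam.conv_out' _).mono hsub')
      (sU.continuousOn.mono hsub) ((on_deriv sU).continuousOn.mono hsub) l)
  refine conv_C1 (ρ₀ := 16) ha0 ⟨min_le_right _ _, le_max_right _ _⟩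
    ⟨min_le_left _ _, le_max_left _ _⟩ s.tA s.tA' (fun n => (s.sol n).redSol (s.fam.prof n))
    s.sF s.sH s.eF s.eH (fun η hη => ?_) s.y₀ s.y₁ s.y₂ (by simpa only [deriv_cj] using s.y₃)
  filter_upwards [pot_small s.fam ha hη, u s.t₀ s.t₁ s.t₂ η hη,
    u (tendsto_cj s.t₀) (tendsto_cj s.t₁) (tendsto_cj s.t₂) η hη] with n h₁ h₂ h₃ x hx
  have k := h₁ 0 (by norm_num) x hx.1
  simp only [iteratedDeriv_zero] at k
  refine ⟨k.1, k.2, ?_, ?_⟩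
  · rw [← mul_sub, norm_mul, norm_neg, norm_I, one_mul, ← dist_eq_norm, dist_comm, limF_eq]
    exact (h₂ x hx).le
  · rw [← mul_sub, norm_mul, norm_neg, norm_I, one_mul, ← dist_eq_norm, dist_comm, limF_eq]
    exact (h₃ x hx).le

theorem c8 (s : Seq m β G βi Z U l K lam lami f g c₀ c₁ c₂ d₀ d₁ d₂ F H) {ρ : ℝ}
    (hρ : 4 * Z < ρ) {k : ℕ} (hk : k ≤ 8) :
    Tendsto (fun n => iteratedDeriv k (red l (f n)) ρ) atTop (𝓝 (iteratedDeriv k F ρ)) ∧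
      Tendsto (fun n => iteratedDeriv k (fun x => conj (red l (g n) x)) ρ) atTop
        (𝓝 (iteratedDeriv k H ρ)) := by
  have hρ0 : 0 < ρ := by linarith [s.fam.lim.inZ.1]
  have sU := s.fam.lim.symb.smooth
  have sG := fun n => prof_on (s.fam.prof n)
  obtain ⟨a₀, a₁, a₂, a₃⟩ := s.c1 hρ
  refine tendsto_levels hρ0 s.tA s.tA' (fun n => (s.sol n).redSol (s.fam.prof n))
    (fun n => (symb_pot (s.one n) (s.fam.prof n)).1.smooth)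
    (fun n => (symb_pot (s.one n) (s.fam.prof n)).2.smooth)
    (fun n => contDiffOn_const.mul (contDiffOn_gen _ (sG n) _ _ _ _))
    (fun n => contDiffOn_const.mul (contDiffOn_gen _ (sG n) _ _ _ _)) s.sF s.sH s.eF s.eH
    (fun j hj => (pot_tendsto s.fam hρ (by omega)).1)
    (fun j hj => (pot_tendsto s.fam hρ (by omega)).2) (fun j hj => ?_) (fun j hj => ?_)
    a₀ a₁ a₂ a₃ k hk
  · simp only [iteratedDeriv_const_mul_field, limF_eq]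
    exact (tendsto_gen hρ0 (tendsto_Lam s.fam) s.t₀ s.t₁ s.t₂ sG sU
      (G_tendsto s.fam s.one hρ (by omega)) (G_tendsto s.fam s.one hρ (by omega)) l).const_mul _
  · simp only [iteratedDeriv_const_mul_field, limF_eq]
    exact (tendsto_gen hρ0 (tendsto_Lam s.fam) (tendsto_cj s.t₀) (tendsto_cj s.t₁)
      (tendsto_cj s.t₂) sG sU (G_tendsto s.fam s.one hρ (by omega))
      (G_tendsto s.fam s.one hρ (by omega)) l).const_mul _

theorem rdata (s : Seq m β G βi Z U l K lam lami f g c₀ c₁ c₂ d₀ d₁ d₂ F H) {r : ℝ} (hr : 0 < r)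
    (hρ : 4 * Z < r ^ 2) : Tendsto (fun n => f n r) atTop (𝓝 ((r : ℂ) ^ l * F (r ^ 2))) ∧
      Tendsto (fun n => deriv (f n) r) atTop
        (𝓝 ((r : ℂ) ^ l * (l / r * F (r ^ 2) + 2 * r * deriv F (r ^ 2)))) ∧
      Tendsto (fun n => g n r) atTop (𝓝 ((r : ℂ) ^ l * conj (H (r ^ 2)))) ∧
      Tendsto (fun n => deriv (g n) r) atTop
        (𝓝 ((r : ℂ) ^ l * (l / r * conj (H (r ^ 2)) + 2 * r * conj (deriv H (r ^ 2))))) := by
  obtain ⟨a₀, a₁, a₂, a₃⟩ := s.c1 hρ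
  have h2 : 0 < r ^ 2 := by positivity
  have b₂ := tendsto_cj a₂
  have b₃ := tendsto_cj a₃
  simp only [deriv_cj, conj_conj] at b₂ b₃
  refine ⟨?_, ?_, ?_, ?_⟩
  · exact (a₀.const_mul _).congr fun n => (red_eq l (f n) hr).symm
  · exact (((a₀.const_mul _).add (a₁.const_mul _)).const_mul _).congr fun n =>
      (deriv_eq l hr ((s.sol n).diffF (s.fam.prof n) h2)).symm
  · exact (b₂.const_mul _).congr fun n => (red_eq l (g n) hr).symm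
  · exact (((b₂.const_mul _).add (b₃.const_mul _)).const_mul _).congr fun n =>
      (deriv_eq l hr ((s.sol n).diffG (s.fam.prof n) h2)).symm

theorem src_bound (s : Seq m β G βi Z U l K lam lami f g c₀ c₁ c₂ d₀ d₁ d₂ F H) :
    ∃ M : ℝ, ∀ᶠ n in atTop, ∀ i ≤ 10, ∀ ρ : ℝ, 16 ≤ ρ →
      ‖iteratedDeriv i (red l fun r => -I * symF (m n) (β n) (G n) l (c₀ n) (c₁ n) (c₂ n) r) ρ‖
          ≤ M * ρ ^ (-((l : ℝ) / 2 + i)) ∧
        ‖iteratedDeriv i (red l fun r => I * symG (m n) (β n) (G n) l (c₀ n) (c₁ n) (c₂ n) r) ρ‖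
          ≤ M * ρ ^ (-((l : ℝ) / 2 + i)) := by
  obtain ⟨C, hC, hb⟩ := G_symb s.fam
  refine ⟨(‖d₀‖ + ‖d₁‖ + ‖d₂‖ + 1) * C * (14 + (‖-I * βi‖ + 1)), ?_⟩
  filter_upwards [hb, ev_norm_le s.t₀, ev_norm_le s.t₁, ev_norm_le s.t₂,
    ev_norm_le (tendsto_Lam s.fam)] with n h₁ h₂ h₃ h₄ h₅ i hi ρ hρ
  have hρ0 : 0 < ρ := by linarith
  have p₀ := norm_nonneg d₀
  have p₁ := norm_nonneg d₁
  have p₂ := norm_nonneg d₂
  have hG := s.fam.prof n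
  constructor
  · have e : red l (symF (m n) (β n) (G n) l (c₀ n) (c₁ n) (c₂ n))
        =ᶠ[𝓝 ρ] gen (Lam (m n) (β n)) (G n) l (c₀ n) (c₁ n) (c₂ n) := by
      filter_upwards [Ioi_mem_nhds hρ0] with x hx using red_F hG l _ _ _ hx
    rw [red_mul, iteratedDeriv_const_mul_field, norm_mul, norm_neg, norm_I, one_mul,
      e.iteratedDeriv_eq]
    exact gen_bound (prof_on hG) (by linarith) h₅ (by linarith) (by linarith) (by linarith) hC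
      (fun j hj => h₁ j hj ρ hρ) l hi
  · have e : red l (symG (m n) (β n) (G n) l (c₀ n) (c₁ n) (c₂ n)) =ᶠ[𝓝 ρ] fun x =>
        conj (gen (Lam (m n) (β n)) (G n) l (conj (c₀ n)) (conj (c₁ n)) (conj (c₂ n)) x) := by
      filter_upwards [Ioi_mem_nhds hρ0] with x hx using red_G hG l _ _ _ hx
    rw [red_mul, iteratedDeriv_const_mul_field, norm_mul, norm_I, one_mul,
      e.iteratedDeriv_eq, iter_cj, Complex.norm_conj]
    exact gen_bound (prof_on hG) (by linarith) h₅ (by rw [Complex.norm_conj]; linarith)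
      (by rw [Complex.norm_conj]; linarith) (by rw [Complex.norm_conj]; linarith) hC
      (fun j hj => h₁ j hj ρ hρ) l hi

end Seq

theorem wn_split {l p j : ℕ} {q : ℝ} (hq : q = (p : ℝ)) {F H : ℝ → ℂ}
    (hF : IntegrableOn (fun ρ : ℝ => ρ ^ p * ‖iteratedDeriv j (red l F) ρ‖ ^ 2) (Ioi 16))
    (hH : IntegrableOn (fun ρ : ℝ => ρ ^ p * ‖iteratedDeriv j (red l H) ρ‖ ^ 2) (Ioi 16)) :
    0 ≤ wn q j (red l F) (red l H) 16 ∧
    ∫ ρ in Ioi (16 : ℝ), ρ ^ p * ‖iteratedDeriv j (red l F) ρ‖ ^ 2 ≤ wn q j (red l F) (red l H) 16 ∧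
    ∫ ρ in Ioi (16 : ℝ), ρ ^ p * ‖iteratedDeriv j (red l H) ρ‖ ^ 2
      ≤ wn q j (red l F) (red l H) 16 := by
  have e : wn q j (red l F) (red l H) 16
      = (∫ ρ in Ioi (16 : ℝ), ρ ^ p * ‖iteratedDeriv j (red l F) ρ‖ ^ 2)
        + ∫ ρ in Ioi (16 : ℝ), ρ ^ p * ‖iteratedDeriv j (red l H) ρ‖ ^ 2 := by
    rw [← integral_add hF hH, wn, hq]
    simp only [Real.rpow_natCast, mul_add]
  have a : 0 ≤ ∫ ρ in Ioi (16 : ℝ), ρ ^ p * ‖iteratedDeriv j (red l F) ρ‖ ^ 2 :=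
    setIntegral_nonneg measurableSet_Ioi fun x hx => by
      have : 0 ≤ x := by linarith [mem_Ioi.1 hx]
      positivity
  have b : 0 ≤ ∫ ρ in Ioi (16 : ℝ), ρ ^ p * ‖iteratedDeriv j (red l H) ρ‖ ^ 2 :=
    setIntegral_nonneg measurableSet_Ioi fun x hx => by
      have : 0 ≤ x := by linarith [mem_Ioi.1 hx]
      positivity
  refine ⟨?_, ?_, ?_⟩ <;> linarith

theorem Seq.weakOut (s : Seq m β G βi Z U l K lam lami f g c₀ c₁ c₂ d₀ d₁ d₂ F H) :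
    WeakOut (6 + l) F ∧ WeakOut (6 + l) H := by
  obtain ⟨ε₀, hε₀, C, hC, hX⟩ := ext_X0 K
  obtain ⟨M, hM⟩ := s.src_bound
  have hZ := s.fam.lim.inZ
  obtain ⟨a₀, a₁, a₂, a₃⟩ := s.rdata (r := 4) (by norm_num) (by linarith [hZ.2])
  have t := ((((a₀.norm.add a₁.norm).add a₂.norm).add a₃.norm).pow 2).add_const (M ^ 2)
    |>.const_mul C
  obtain ⟨D, hD⟩ := t.isBoundedUnder_le
  have key : ∀ᶠ n in atTop, WeakOut (6 + l) (red l (f n)) ∧ WeakOut (6 + l) (red l (g n)) ∧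
      wn (l + 12) 7 (red l (f n)) (red l (g n)) 16 + wn (l + 13) 8 (red l (f n)) (red l (g n)) 16
        ≤ D := by
    filter_upwards [hM, eventually_map.1 hD, beta_le s.fam,
      s.fam.goodExt hε₀ (δ := 16 - 4 * Z) (by linarith [hZ.2])] with n h₁ h₂ h₃ h₄
    rw [add_sub_cancel] at h₄
    have hs := symb_red_sym (s.fam.prof n) l (c₀ n) (c₁ n) (c₂ n)
    obtain ⟨w₁, w₂, w₃⟩ := hX _ _ _ _ _ _ _ _ _ M (s.one n) h₃ (s.fam.prof n) h₄ (s.sol n) s.lK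
      (s.bd n) (s.re n) (by rw [red_mul]; exact hs.1.const_mul _)
      (by rw [red_mul]; exact hs.2.const_mul _) h₁
    exact ⟨w₁, w₂, w₃.trans h₂⟩
  have key' : ∀ᶠ n in atTop, (IntegrableOn (fun ρ : ℝ => ρ ^ (6 + l + 6)
        * ‖iteratedDeriv 7 (red l (f n)) ρ‖ ^ 2) (Ioi 16) ∧
        ∫ ρ in Ioi (16 : ℝ), ρ ^ (6 + l + 6) * ‖iteratedDeriv 7 (red l (f n)) ρ‖ ^ 2 ≤ D) ∧
      (IntegrableOn (fun ρ : ℝ => ρ ^ (6 + l + 7)
        * ‖iteratedDeriv 8 (red l (f n)) ρ‖ ^ 2) (Ioi 16) ∧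
        ∫ ρ in Ioi (16 : ℝ), ρ ^ (6 + l + 7) * ‖iteratedDeriv 8 (red l (f n)) ρ‖ ^ 2 ≤ D) ∧
      (IntegrableOn (fun ρ : ℝ => ρ ^ (6 + l + 6)
        * ‖iteratedDeriv 7 (red l (g n)) ρ‖ ^ 2) (Ioi 16) ∧
        ∫ ρ in Ioi (16 : ℝ), ρ ^ (6 + l + 6) * ‖iteratedDeriv 7 (red l (g n)) ρ‖ ^ 2 ≤ D) ∧
      (IntegrableOn (fun ρ : ℝ => ρ ^ (6 + l + 7)
        * ‖iteratedDeriv 8 (red l (g n)) ρ‖ ^ 2) (Ioi 16) ∧
        ∫ ρ in Ioi (16 : ℝ), ρ ^ (6 + l + 7) * ‖iteratedDeriv 8 (red l (g n)) ρ‖ ^ 2 ≤ D) := by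
    filter_upwards [key] with n ⟨w₁, w₂, w₃⟩
    obtain ⟨p₁, p₂, p₃⟩ := wn_split (q := l + 12) (by push_cast; ring) w₁.1 w₂.1
    obtain ⟨p₄, p₅, p₆⟩ := wn_split (q := l + 13) (by push_cast; ring) w₁.2 w₂.2
    exact ⟨⟨w₁.1, by linarith⟩, ⟨w₁.2, by linarith⟩, ⟨w₂.1, by linarith⟩, ⟨w₂.2, by linarith⟩⟩
  have pos : ∀ (p : ℕ) (y : ℝ → ℂ), ∀ x ∈ Ioi (16 : ℝ), 0 ≤ x ^ p * ‖y x‖ ^ 2 := fun p y x hx => by
    have : 0 ≤ x := by linarith [mem_Ioi.1 hx]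
    positivity
  have c := fun x (hx : x ∈ Ioi (16 : ℝ)) k (hk : k ≤ 8) =>
    s.c8 (ρ := x) (by linarith [mem_Ioi.1 hx, hZ.2]) hk
  refine ⟨⟨fatou (fun n => pos _ _) (key'.mono fun n h => h.1) fun x hx => ?_,
    fatou (fun n => pos _ _) (key'.mono fun n h => h.2.1) fun x hx => ?_⟩,
    fatou (fun n => pos _ _) (key'.mono fun n h => h.2.2.1) fun x hx => ?_,
    fatou (fun n => pos _ _) (key'.mono fun n h => h.2.2.2) fun x hx => ?_⟩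
  · exact ((c x hx 7 (by norm_num)).1.norm.pow 2).const_mul _
  · exact ((c x hx 8 le_rfl).1.norm.pow 2).const_mul _
  · have := ((c x hx 7 (by norm_num)).2.norm.pow 2).const_mul (x ^ (6 + l + 6))
    simpa only [iter_cj, Complex.norm_conj] using this
  · have := ((c x hx 8 le_rfl).2.norm.pow 2).const_mul (x ^ (6 + l + 7))
    simpa only [iter_cj, Complex.norm_conj] using this

end Vale.Agent.P139Z.BF
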