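import Vale.Agent.P139Z.BF.Gen

/-! Block BF, auxiliary file: reduction formulas, subsequences, and the finite-dimensional step. -/

open Set Filter Topology MeasureTheory Complex
open scoped NNReal ENNReal ComplexConjugate ContDiff

namespace Vale.Agent.P139Z.BF

theorem red_eq (l : ℕ) (f : ℝ → ℂ) {r : ℝ} (hr : 0 < r) : f r = (r : ℂ) ^ l * red l f (r ^ 2) := by
  have h : (r : ℂ) ≠ 0 := by exact_mod_cast hr.ne'
  unfold red
  rw [Real.sqrt_sq hr.le]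
  field_simp

theorem hasDerivAt_sq {F : ℝ → ℂ} {r : ℝ} (hF : DifferentiableAt ℝ F (r ^ 2)) :
    HasDerivAt (fun x : ℝ => F (x ^ 2)) (2 * r * deriv F (r ^ 2)) r := by
  have h1 : HasDerivAt (fun x : ℝ => x ^ 2) (2 * r) r := by
    simpa using hasDerivAt_pow 2 r
  have h2 := HasDerivAt.scomp (h := fun x : ℝ => x ^ 2) r hF.hasDerivAt h1
  refine h2.congr_deriv ?_
  rw [Complex.real_smul]
  push_cast
  ring

theorem hasDerivAt_cpow (l : ℕ) {r : ℝ} (hr : 0 < r) :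
    HasDerivAt (fun x : ℝ => (x : ℂ) ^ l) ((r : ℂ) ^ l * (l / r)) r := by
  have h : (r : ℂ) ≠ 0 := by exact_mod_cast hr.ne'
  have h1 := (Complex.ofRealCLM.hasDerivAt (x := r)).pow l
  refine h1.congr_deriv ?_
  simp only [ofRealCLM_apply, ofReal_one]
  cases l with
  | zero => simp
  | succ l =>
    rw [Nat.add_sub_cancel, pow_succ]
    field_simp

theorem deriv_eq (l : ℕ) {f : ℝ → ℂ} {r : ℝ} (hr : 0 < r)
    (hF : DifferentiableAt ℝ (red l f) (r ^ 2)) :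
    deriv f r = (r : ℂ) ^ l * (l / r * red l f (r ^ 2) + 2 * r * deriv (red l f) (r ^ 2)) := by
  have e : f =ᶠ[𝓝 r] fun x : ℝ => (x : ℂ) ^ l * red l f (x ^ 2) := by
    filter_upwards [Ioi_mem_nhds hr] with x hx using red_eq l f hx
  rw [e.deriv_eq]
  refine ((hasDerivAt_cpow l hr).mul (hasDerivAt_sq hF)).deriv.trans ?_
  ring

theorem red_mul (l : ℕ) (c : ℂ) (f : ℝ → ℂ) :
    red l (fun r => c * f r) = fun ρ => c * red l f ρ := by
  funext ρ; unfold red; ring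

theorem red_sub (l : ℕ) (f g : ℝ → ℂ) :
    red l (fun r => f r - g r) = fun ρ => red l f ρ - red l g ρ := by
  funext ρ; unfold red; ring

theorem red_cj (l : ℕ) (f : ℝ → ℂ) :
    red l (fun r => conj (f r)) = fun ρ => conj (red l f ρ) := by
  funext ρ; unfold red; simp

variable {m : ℕ} {β : ℝ} {G : ℝ → ℂ}

theorem red_F (hG : IsProfile m β G) (l : ℕ) (c₀ c₁ c₂ : ℂ) {ρ : ℝ} (hρ : 0 < ρ) :
    red l (symF m β G l c₀ c₁ c₂) ρ = gen (Lam m β) G l c₀ c₁ c₂ ρ :=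
  red_symF l hG c₀ c₁ c₂ hρ

theorem red_G (hG : IsProfile m β G) (l : ℕ) (c₀ c₁ c₂ : ℂ) {ρ : ℝ} (hρ : 0 < ρ) :
    red l (symG m β G l c₀ c₁ c₂) ρ
      = conj (gen (Lam m β) G l (conj c₀) (conj c₁) (conj c₂) ρ) := by
  have e : symG m β G l c₀ c₁ c₂
      = fun r => conj (symF m β G l (conj c₀) (conj c₁) (conj c₂) r) :=
    funext fun r => symG_eq l c₀ c₁ c₂ r
  rw [e, red_cj, ← red_F hG l _ _ _ hρ]

/-- A solution whose source is a symmetry mode. -/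
def Sol (m : ℕ) (β : ℝ) (G : ℝ → ℂ) (l : ℕ) (lam : ℂ) (f g : ℝ → ℂ) (c₀ c₁ c₂ : ℂ) : Prop :=
  RSol m β G l lam f g (fun r => -I * symF m β G l c₀ c₁ c₂ r)
    (fun r => I * symG m β G l c₀ c₁ c₂ r)

theorem Sol.redSol (hG : IsProfile m β G) {l : ℕ} {lam : ℂ} {f g : ℝ → ℂ} {c₀ c₁ c₂ : ℂ}
    (h : Sol m β G l lam f g c₀ c₁ c₂) :
    RedSol (fun ρ => pot1 m (G ρ)) (fun ρ => pot2 m (G ρ)) (l / 2 + lam + Lam m β)
      (l / 2 + conj lam + Lam m β) (6 + l) (red l f) (fun ρ => conj (red l g ρ))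
      (fun ρ => -I * gen (Lam m β) G l c₀ c₁ c₂ ρ)
      (fun ρ => -I * gen (Lam m β) G l (conj c₀) (conj c₁) (conj c₂) ρ) := by
  have h1 := RSol.redSol h
  refine ⟨h1.smoothF, h1.smoothH, fun ρ hρ => ?_, fun ρ hρ => ?_⟩
  · rw [h1.eqF ρ hρ, red_mul]
    simp only [red_F hG l _ _ _ hρ]
  · rw [h1.eqH ρ hρ, red_mul]
    simp [red_G hG l _ _ _ hρ]

theorem Sol.diffF (hG : IsProfile m β G) {l : ℕ} {lam : ℂ} {f g : ℝ → ℂ} {c₀ c₁ c₂ : ℂ}
    (h : Sol m β G l lam f g c₀ c₁ c₂) {ρ : ℝ} (hρ : 0 < ρ) : DifferentiableAt ℝ (red l f) ρ :=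
  (at_le (h.redSol hG).smoothF hρ (i := 1) (by norm_num)).differentiableAt (by simp)

theorem Sol.diffG (hG : IsProfile m β G) {l : ℕ} {lam : ℂ} {f g : ℝ → ℂ} {c₀ c₁ c₂ : ℂ}
    (h : Sol m β G l lam f g c₀ c₁ c₂) {ρ : ℝ} (hρ : 0 < ρ) : DifferentiableAt ℝ (red l g) ρ := by
  have h1 := contDiffAt_cj (at_le (h.redSol hG).smoothH hρ (i := 1) (by norm_num))
  simp only [conj_conj] at h1
  exact h1.differentiableAt (by simp)

theorem symF_lin (l : ℕ) (t c₀ c₁ c₂ d₀ d₁ d₂ : ℂ) (r : ℝ) :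
    symF m β G l (t * (c₀ - d₀)) (t * (c₁ - d₁)) (t * (c₂ - d₂)) r
      = t * (symF m β G l c₀ c₁ c₂ r - symF m β G l d₀ d₁ d₂ r) := by
  unfold symF; split_ifs <;> ring

theorem symG_lin (l : ℕ) (t c₀ c₁ c₂ d₀ d₁ d₂ : ℂ) (r : ℝ) :
    symG m β G l (t * (c₀ - d₀)) (t * (c₁ - d₁)) (t * (c₂ - d₂)) r
      = t * (symG m β G l c₀ c₁ c₂ r - symG m β G l d₀ d₁ d₂ r) := by
  unfold symG; split_ifs <;> ring

theorem RSol_congr {l : ℕ} {lam : ℂ} {f g SF SG SF' SG' : ℝ → ℂ} (h : RSol m β G l lam f g SF SG)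
    (e₁ : ∀ r, SF r = SF' r) (e₂ : ∀ r, SG r = SG' r) : RSol m β G l lam f g SF' SG' :=
  ⟨h.bf, h.bg, fun r hr => (h.eqF r hr).trans (e₁ r), fun r hr => (h.eqG r hr).trans (e₂ r)⟩

theorem Sol.comb {l : ℕ} {lam : ℂ} {f g f' g' : ℝ → ℂ} {c₀ c₁ c₂ d₀ d₁ d₂ : ℂ}
    (h : Sol m β G l lam f g c₀ c₁ c₂) (h' : Sol m β G l lam f' g' d₀ d₁ d₂) (t : ℂ) :
    Sol m β G l lam (fun r => t * (f r - f' r)) (fun r => t * (g r - g' r)) (t * (c₀ - d₀))
      (t * (c₁ - d₁)) (t * (c₂ - d₂)) := by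
  refine RSol_congr ((RSol.sub h h').const_mul t) (fun r => ?_) (fun r => ?_)
  · rw [symF_lin]; ring
  · rw [symG_lin]; ring

theorem Sol.mode (hm : 1 ≤ m) (hG : IsProfile m β G) (l : ℕ) (lam a₀ a₁ a₂ : ℂ) :
    Sol m β G l lam (symF m β G l a₀ a₁ a₂) (symG m β G l a₀ a₁ a₂) (-(lam * a₀))
      (-((lam - 1) * a₁)) (-((lam - 1 / 2) * a₂)) := by
  refine ⟨(bddC_sym hG l a₀ a₁ a₂).1, (bddC_sym hG l a₀ a₁ a₂).2, fun r hr => ?_, fun r hr => ?_⟩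
  · rw [(mode_eq hm hG l lam a₀ a₁ a₂ hr).1]
    unfold symF; split_ifs <;> ring
  · rw [(mode_eq hm hG l lam a₀ a₁ a₂ hr).2]
    unfold symG; split_ifs <;> ring

theorem Sol.proj {l : ℕ} {lam : ℂ} {f g : ℝ → ℂ} {c₀ c₁ c₂ : ℂ}
    (h : Sol m β G l lam f g c₀ c₁ c₂) : Sol m β G l lam f g (if l = 0 then c₀ else 0)
      (if l = 0 then c₁ else 0) (if l = 1 then c₂ else 0) := by
  refine RSol_congr h (fun r => ?_) (fun r => ?_)
  · unfold symF; split_ifs <;> rfl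
  · unfold symG; split_ifs <;> rfl

theorem Sol.zero (hG : IsProfile m β G) {l : ℕ} {lam : ℂ} {f g : ℝ → ℂ}
    (h : Sol m β G l lam f g 0 0 0) (h₀ : red l f 16 = 0) (h₁ : deriv (red l f) 16 = 0)
    (h₂ : red l g 16 = 0) (h₃ : deriv (red l g) 16 = 0) : ∀ r : ℝ, 0 < r → f r = 0 ∧ g r = 0 := by
  have h4 : (0 : ℝ) < 4 := by norm_num
  have e : (4 : ℝ) ^ 2 = 16 := by norm_num
  have h16 : (0 : ℝ) < 4 ^ 2 := by norm_num
  refine RSol.unique hG (RSol_congr h (SF' := 0) (SG' := 0) (fun r => ?_) (fun r => ?_)) h4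
    ?_ ?_ ?_ ?_
  · simp [symF]
  · simp [symG]
  · rw [red_eq l f h4, e, h₀, mul_zero]
  · rw [deriv_eq l h4 (h.diffF hG h16), e, h₀, h₁]; simp
  · rw [red_eq l g h4, e, h₂, mul_zero]
  · rw [deriv_eq l h4 (h.diffG hG h16), e, h₂, h₃]; simp

/-- Normalization modulo the range of a linear map. -/
theorem riesz {E V : Type*} [NormedAddCommGroup V] [NormedSpace ℂ V] [FiniteDimensional ℂ V]
    [AddCommGroup E] [Module ℂ E] {T : E → V} (hT : IsLinearMap ℂ T) {v : V} (hv : ∀ a, v ≠ T a) :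
    ∃ (t : ℂ) (a : E), ‖t • (v - T a)‖ ≤ 2 ∧ ∀ b, 1 ≤ ‖t • (v - T a) - T b‖ := by
  set W : Submodule ℂ V := LinearMap.range (hT.mk' T) with hW
  have hc : IsClosed (W : Set V) := W.closed_of_finiteDimensional
  have hne : (W : Set V).Nonempty := ⟨0, W.zero_mem⟩
  have hn : v ∉ (W : Set V) := by
    rintro ⟨a, ha⟩
    exact hv a ha.symm
  have hd : 0 < Metric.infDist v W := (hc.notMem_iff_infDist_pos hne).1 hn
  set d := Metric.infDist v W with hdd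
  obtain ⟨y, ⟨a, rfl⟩, hy⟩ := (Metric.infDist_lt_iff hne).1 (show d < 2 * d by linarith)
  have hd' : (d : ℂ) ≠ 0 := by exact_mod_cast hd.ne'
  have hn1 : ‖((d : ℂ))⁻¹‖ = d⁻¹ := by simp [abs_of_pos hd]
  refine ⟨(d : ℂ)⁻¹, a, ?_, fun b => ?_⟩
  · rw [norm_smul, hn1, inv_mul_le_iff₀ hd]
    rw [dist_eq_norm] at hy
    exact (le_of_lt hy).trans (by linarith)
  · have e : (d : ℂ)⁻¹ • (v - T a) - T b = (d : ℂ)⁻¹ • (v - T (a + (d : ℂ) • b)) := by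
      rw [hT.map_add, hT.map_smul, ← sub_sub, smul_sub _ (v - T a), smul_smul, inv_mul_cancel₀ hd',
        one_smul]
    have h1 : d ≤ dist v (T (a + (d : ℂ) • b)) := Metric.infDist_le_dist_of_mem ⟨_, rfl⟩
    rw [e, norm_smul, hn1, le_inv_mul_iff₀ hd, mul_one, ← dist_eq_norm]
    exact h1

theorem comp_family {m : ℕ → ℕ} {β : ℕ → ℝ} {G : ℕ → ℝ → ℂ} {βi Z : ℝ} {U : ℝ → ℂ}
    (h : IsFamily m β G βi Z U) {φ : ℕ → ℕ} (hφ : Tendsto φ atTop atTop) :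
    IsFamily (fun n => m (φ n)) (fun n => β (φ n)) (fun n => G (φ n)) βi Z U where
  lim := h.lim
  prof n := h.prof (φ n)
  m_tendsto := h.m_tendsto.comp hφ
  β_tendsto := h.β_tendsto.comp hφ
  upper n := h.upper (φ n)
  mono ε hε := hφ.eventually (h.mono ε hε)
  core δ hδ := hφ.eventually (h.core δ hδ)
  conv_in := h.conv_in.seq_tendstoUniformlyOn φ hφ
  conv_in' := h.conv_in'.seq_tendstoUniformlyOn φ hφ
  conv_out R := (h.conv_out R).seq_tendstoUniformlyOn φ hφ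
  conv_out' R := (h.conv_out' R).seq_tendstoUniformlyOn φ hφ
  tv ϑ δ h₁ h₂ h₃ := hφ.eventually (h.tv ϑ δ h₁ h₂ h₃)
  gap δ hδ := (h.gap δ hδ).imp fun _ h' => ⟨h'.1, hφ.eventually h'.2⟩
  symb := h.symb.imp fun _ h' i => (h' i).imp fun _ h'' n => h'' (φ n)
  far := h.far.imp fun _ h' => ⟨h'.1, hφ.eventually h'.2⟩

theorem tendsto_inv_m {m : ℕ → ℕ} (h : Tendsto m atTop atTop) :
    Tendsto (fun n => 1 / (2 * (m n : ℝ))) atTop (𝓝 0) := by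
  have h1 : Tendsto (fun n => 2 * (m n : ℝ)) atTop atTop :=
    (tendsto_natCast_atTop_atTop.comp h).const_mul_atTop two_pos
  exact h1.inv_tendsto_atTop.congr fun n => by simp

theorem tendsto_Lam {m : ℕ → ℕ} {β : ℕ → ℝ} {G : ℕ → ℝ → ℂ} {βi Z : ℝ} {U : ℝ → ℂ}
    (h : IsFamily m β G βi Z U) : Tendsto (fun n => Lam (m n) (β n)) atTop (𝓝 (-I * βi)) := by
  have h1 := (Complex.continuous_ofReal.tendsto _).comp (tendsto_inv_m h.m_tendsto)
  have h2 := (Complex.continuous_ofReal.tendsto _).comp h.β_tendsto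
  have h3 := h1.sub (h2.const_mul I)
  simp only [ofReal_zero, zero_sub, ← neg_mul] at h3
  refine h3.congr fun n => ?_
  simp [Lam]

end Vale.Agent.P139Z.BF
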